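import Vale.Agent.P354H.Fin

open scoped ContDiff
open MeasureTheory Set Filter Topology

namespace Vale.Agent.P354H

/-- A bound for short negative times. -/
theorem back (C : ℕ → ℝ) (R : ℝ) : ∃ δ c : ℝ, 0 < δ ∧
    ∀ (V : Type) [NormedAddCommGroup V] [InnerProductSpace ℝ V] [FiniteDimensional ℝ V]
      (S : Sys V) (W : ℝ × X3 → V), S.OK → S.Bd (Icc (-1) 1) C → Good (sl W 0) →
      Hk 8 (sl W 0) R → ContDiff ℝ ∞ W → ∀ t ∈ Icc (-δ) 0,
      (∀ p : ℝ × X3, p.1 ∈ Icc t 0 → S.Holds W p) → Sb 1 (sl W t) c := by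
  obtain ⟨δ, c, d0, d1, h⟩ := pre C R
  refine ⟨δ / 2, c, by linarith, fun V _ _ _ S W ok bd gw hw hW t ht H => ?_⟩
  obtain ⟨U, u1, u2, u3⟩ := h V S 0 _ ok (by simpa using bd) gw hw
  have sm := P354HL.smooth V S _ _ U ok.sm u1
  have hO : IsOpen (Ioo (0 - δ) (0 + δ) ×ˢ (univ : Set X3)) := isOpen_Ioo.prod isOpen_univ
  have ho : ∀ p ∈ Ioo (0 - δ) (0 + δ) ×ˢ (univ : Set X3), S.Holds (fun p => U p.1 p.2) p :=
    fun p hp => by
      have d := (sm.contDiffAt (hO.mem_nhds hp)).differentiableAt (by simp)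
      have a0 : HasDerivAt (fun s => U s p.2) (dt (fun p => U p.1 p.2) p) p.1 :=
        HasFDerivAt.comp_hasDerivAt (l := fun p : ℝ × X3 => U p.1 p.2) (f := fun s => (s, p.2)) p.1
          d.hasFDerivAt ((hasDerivAt_id p.1).prodMk (hasDerivAt_const p.1 p.2))
      have a := a0.unique ((u1.deriv p.1 hp.1 p.2).hasDerivAt (isOpen_Ioo.mem_nhds hp.1))
      refine a.trans ?_
      simp only [Sys.G, ← P354HL.pd_sl_at (t := p.1) (x := p.2) d]
      rfl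
  have mt : ∀ s ∈ Icc t 0, s ∈ Ioo (0 - δ) (0 + δ) := fun s hs =>
    ⟨by linarith [hs.1, ht.1], by linarith [hs.2]⟩
  have c0 : 0 ≤ C 0 := ((bd 0 0 ⟨by norm_num, by norm_num⟩).2.1).nonneg
  have c1 : 0 ≤ c := (u3 0 (mt 0 ⟨ht.2, le_rfl⟩)).nonneg
  have s1 : ContDiffOn ℝ 1 (fun p : ℝ × X3 => U p.1 p.2) (Ioo (0 - δ) (0 + δ) ×ˢ univ) :=
    sm.of_le (by simp)
  have s2 : ContDiffOn ℝ 1 W (Ioo (0 - δ) (0 + δ) ×ˢ univ) := (hW.of_le (by simp)).contDiffOn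
  have e : U t = sl W t := by
    funext y
    have hs : Icc t 0 ×ˢ Metric.closedBall y ((C 0 + C 0 * c) * (0 - t) + 1) ⊆
        Ioo (0 - δ) (0 + δ) ×ˢ (univ : Set X3) := fun p hp => ⟨mt _ hp.1, trivial⟩
    obtain ⟨K, hK⟩ := (isCompact_Icc.prod (isCompact_closedBall y _)).bddAbove_image
      ((P354HG.cK_cont ok.sm hO s1 s2).mono hs)
    refine sub_eq_zero.1 (P354HL.speed' (Z := fun p => U p.1 p.2 - W p) (K := K)
      (A := fun j p => S.A j p (U p.1 p.2)) hO hs (P354HG.A_cd ok.sm s1) (s1.sub s2)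
      (fun p hp => ⟨fun j => ⟨P354HL.sym_A ok j p _, ?_⟩, ?_⟩) (fun x _ => ?_) ht.2 (lt_add_one _)
      (by positivity))
    · refine (P354HG.norm_A_le bd ⟨by linarith [hp.1.1, ht.1], by linarith [hp.1.2]⟩ j _).trans ?_
      exact add_le_add_right (mul_le_mul_of_nonneg_left ((u3 _ (mt _ hp.1)).zero _) c0) _
    · refine (P354HG.diff_le ((s1.contDiffAt (hO.mem_nhds (hs hp))).differentiableAt one_ne_zero)
        (hW.differentiable (by simp) p) (ho p (hs hp)) (H p hp.1)).trans ?_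
      exact mul_le_mul_of_nonneg_right (hK (mem_image_of_mem _ hp)) (norm_nonneg _)
    · simp [u2, sl]
  rw [← e]
  exact u3 t (mt t ⟨le_rfl, ht.2⟩)

/-- Global existence from the a priori estimate, with a bound for negative times. -/
def GLOBAL2 : Prop :=
  ∀ (C : ℕ → ℝ) (R : ℝ), ∃ δ c : ℝ, 0 < δ ∧ δ ≤ 1 ∧
    ∀ (V : Type) [NormedAddCommGroup V] [InnerProductSpace ℝ V] [FiniteDimensional ℝ V]
      (S : Sys V) (w : X3 → V), S.OK → S.Bd (Icc (-1) 1) C → (∀ T, ∃ C', S.Bd (Icc (-1) T) C') →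
      Good w → Hk 8 w R → Apr S w →
      ∃ W, ContDiff ℝ ∞ W ∧ sl W 0 = w ∧ (∀ p : ℝ × X3, -δ ≤ p.1 → S.Holds W p) ∧
        (∀ t ∈ Icc (-δ) 0, Sb 1 (sl W t) c) ∧
        ∀ T, ∃ W', ContDiff ℝ ∞ W' ∧ HasCompactSupport W' ∧
          ∀ p : ℝ × X3, p.1 < T → W' p = W p

theorem global2 : GLOBAL2 := by
  intro C R
  obtain ⟨δ, d0, d1, h⟩ := globalEx C R
  obtain ⟨δ', c, d2, h'⟩ := back C R
  refine ⟨min δ δ', c, lt_min d0 d2, (min_le_left _ _).trans d1,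
    fun V _ _ _ S w ok bd bd' gw hw ap => ?_⟩
  obtain ⟨W, h1, h2, h3, h4⟩ := h V S w ok bd bd' gw hw ap
  have m1 := min_le_left δ δ'
  have m2 := min_le_right δ δ'
  refine ⟨W, h1, h2, fun p hp => h3 p (by linarith), fun t ht => ?_, h4⟩
  exact h' V S W ok bd (h2 ▸ gw) (h2 ▸ hw) h1 t ⟨by linarith [ht.1], ht.2⟩
    fun p hp => h3 p (by linarith [hp.1, ht.1])

end Vale.Agent.P354H
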