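import Vale.Agent.P354H.Diff

open scoped ContDiff
open MeasureTheory Set Filter Topology

namespace Vale.Agent.P354H

variable {V : Type} [NormedAddCommGroup V] [InnerProductSpace ℝ V]

theorem ap_add {A B : X3 → V →L[ℝ] V} (w : X3 → V) : ap (A + B) w = ap A w + ap B w := by
  funext x
  simp [ap]

theorem comm_add (α : List (Fin 3)) {A B : X3 → V →L[ℝ] V} {w : X3 → V} (hA : ContDiff ℝ ∞ A)
    (hB : ContDiff ℝ ∞ B) (hw : ContDiff ℝ ∞ w) :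
    comm α (A + B) w = comm α A w + comm α B w := by
  simp only [comm, ap_add]
  rw [pdl_add α (ap_sm hA hw) (ap_sm hB hw)]
  abel

/-- One principal term of the difference scheme. -/
noncomputable def term (a : X3 → V →L[ℝ] V) (l : X3 → V →L[ℝ] V →L[ℝ] V) (ε : ℝ) (j : Fin 3)
    (u : X3 → V) : X3 → V := ap (a + ap l u) (fd ε j u)

/-- The term without derivatives. -/
noncomputable def low (b : X3 → V →L[ℝ] V) (q : X3 → V →L[ℝ] V →L[ℝ] V) (u : X3 → V) :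
    X3 → V := ap b u + ap (ap q u) u

theorem good_term {a : X3 → V →L[ℝ] V} {l : X3 → V →L[ℝ] V →L[ℝ] V} {u : X3 → V}
    (ha : ContDiff ℝ ∞ a) (hl : ContDiff ℝ ∞ l) (hu : Good u) (ε : ℝ) (j : Fin 3) :
    Good (term a l ε j u) := (hu.fd ε j).ap_right (ha.add (ap_sm hl hu.1))

theorem good_low {b : X3 → V →L[ℝ] V} {q : X3 → V →L[ℝ] V →L[ℝ] V} {u : X3 → V}
    (hb : ContDiff ℝ ∞ b) (hq : ContDiff ℝ ∞ q) (hu : Good u) : Good (low b q u) :=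
  (hu.ap_right hb).add (hu.ap_right (ap_sm hq hu.1))

theorem pow_mono2 {a b : ℕ} (h : a ≤ b) : (2 : ℝ) ^ a ≤ 2 ^ b :=
  pow_le_pow_right₀ (by norm_num) h

section
variable {a : X3 → V →L[ℝ] V} {l : X3 → V →L[ℝ] V →L[ℝ] V} {u : X3 → V} {k p : ℕ}
  {C s n ε : ℝ}

theorem sb_lu (hl : ContDiff ℝ ∞ l) (hu : ContDiff ℝ ∞ u) (h2 : Sb k l C) (h3 : Sb p u s)
    (hp : p ≤ k) : Sb p (ap l u) (2 ^ k * (C * s)) :=
  ((h2.low hp).ap h3 hl hu).mono le_rfl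
    (mul_le_mul_of_nonneg_right (pow_mono2 hp) (mul_nonneg h2.nonneg h3.nonneg))

theorem nk_term (ha : ContDiff ℝ ∞ a) (hl : ContDiff ℝ ∞ l) (hu : Good u) (h1 : Sb k a C)
    (h2 : Sb k l C) (h3 : Sb (p + 1) u s) (h4 : Nk k u n) (hp : p + 1 ≤ k) (hk : k ≤ 2 * p + 2)
    (hε : 0 < ε) (hε1 : ε ≤ 1) (j : Fin 3) :
    Nk k (term a l ε j u) (2 * (2 ^ k) ^ 2 * C * (1 + s) * n / ε) := by
  have g1 := hu.ap_right hl
  have gw := hu.fd ε j
  have e1 := prod1 ha gw h1 (h4.fd hu hε j)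
  have e2 := prod2 g1 gw (by omega) (sb_lu hl hu.1 h2 h3 hp) (prod1 hl hu h2 h4)
    (h3.fd hu.1 hε j) (h4.fd hu hε j)
  unfold term
  rw [ap_add]
  refine (e1.add e2 (gw.ap_right ha) (gw.ap_right g1.1)).mono le_rfl ?_
  have hM := one_le_two_pow k
  have hC := h1.nonneg
  have hs := h3.nonneg
  have hn := h4.nonneg
  have hn' : n ≤ n / ε := le_div_self hn hε hε1
  rw [mul_div_assoc]
  generalize (2 : ℝ) ^ k = M at *
  generalize n / ε = m at *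
  have hm : 0 ≤ m := hn.trans hn'
  have q1 : M * (C * m) ≤ 2 * M ^ 2 * (C * m) :=
    mul_le_mul_of_nonneg_right (by nlinarith) (mul_nonneg hC hm)
  have q2 : M * (M * (C * n) * s) ≤ M * (M * (C * m) * s) := by gcongr
  nlinarith

theorem ip_term [CompleteSpace V] (ha : ContDiff ℝ ∞ a) (hl : ContDiff ℝ ∞ l) (hu : Good u)
    (sa : ∀ x, Sym (a x)) (sl : ∀ x w, Sym (l x w)) (h1 : Sb (k + 1) a C)
    (h2 : Sb (k + 1) l C) (h3 : Sb (p + 1) u s) (h4 : Nk (k + 1) u n) (hp : p ≤ k)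
    (hk : k ≤ 2 * p + 1) (hε : 0 < ε) (j : Fin 3) (α : List (Fin 3)) (hα : α.length ≤ k + 1) :
    |ip (pdl α u) (pdl α (term a l ε j u))| ≤
      (2 * (k + 1 : ℕ) + 1) * (2 ^ (k + 1)) ^ 2 * C * (1 + s) * n ^ 2 := by
  have g1 := hu.ap_right hl
  have gw := hu.fd ε j
  have gα := hu.pdl α
  have hA : ContDiff ℝ ∞ (a + ap l u) := ha.add g1.1
  have b1 := sb_lu hl hu.1 h2 h3 (by omega : p + 1 ≤ k + 1)
  have e0 : pdl α (term a l ε j u) =
      ap (a + ap l u) (fd ε j (pdl α u)) + (comm α a (fd ε j u) + comm α (ap l u) (fd ε j u)) := by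
    rw [← comm_add α ha g1.1 gw.1, comm, pdl_fd α ε j hu.1, term]
    abel
  have e1 := ip_fd j hA (fun x v w => by
      simp only [Pi.add_apply, ContinuousLinearMap.add_apply, inner_add_left, inner_add_right, ap]
      rw [sa x v w, sl x (u x) v w])
    (fun x => ((h1.low (by omega : 1 ≤ k + 1)).add (b1.low (by omega : 1 ≤ p + 1)) ha g1.1)
      [j] le_rfl x) gα.c0 hε
  have e2 := comm1 α ha gw h1 (h4.fd' hu hε j) hα
  have e3 := comm2 α g1 gw (by omega) b1 (prod1 hl hu h2 h4) (h3.fd hu.1 hε j)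
    (h4.fd' hu hε j) hα
  have c1 := (good_comm α ha gw).c0
  have c2 := (good_comm α g1.1 gw).c0
  have e4 := (abs_ip gα.c0 (c1.add c2)).trans
    (mul_le_mul (h4 α hα) ((n2_add c1 c2).trans (add_le_add e2 e3)) (n2_nonneg _) h4.nonneg)
  rw [e0, ip_add gα.c0 ((gα.fd ε j).ap_right hA).c0.1 (c1.add c2).1]
  refine (abs_add_le _ _).trans ((add_le_add e1 e4).trans ?_)
  have hM := one_le_two_pow (k + 1)
  have hM' := pow_mono2 k.le_succ
  have hC := h1.nonneg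
  have hs := h3.nonneg
  have hn := h4.nonneg
  have hl' : (α.length : ℝ) ≤ (k + 1 : ℕ) := Nat.cast_le.2 hα
  have hn2 : n2 (pdl α u) ^ 2 ≤ n ^ 2 := pow_le_pow_left₀ (n2_nonneg _) (h4 α hα) 2
  have hN : (0 : ℝ) ≤ 2 ^ k := by positivity
  have hL : (0 : ℝ) ≤ α.length := by positivity
  generalize (2 : ℝ) ^ (k + 1) = M at *
  generalize (2 : ℝ) ^ k = N at *
  generalize (α.length : ℝ) = L at *
  generalize ((k + 1 : ℕ) : ℝ) = K at *
  have hM2 : M ≤ M ^ 2 := by nlinarith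
  have q1 : (C + M * (C * s)) * n2 (pdl α u) ^ 2 ≤ (M ^ 2 * C + M ^ 2 * (C * s)) * n ^ 2 := by
    have : C ≤ M ^ 2 * C := le_mul_of_one_le_left hC (hM.trans hM2)
    gcongr
  have q2 : n * (L * (N * (C * n)) + L * (N * (M * (C * s) * n + M * (C * n) * s))) ≤
      n * (K * ((2 * M ^ 2) * (C * n)) + K * (M * (M * (C * s) * n + M * (C * n) * s))) := by
    have : N ≤ 2 * M ^ 2 := by nlinarith
    have hK : 0 ≤ K := hL.trans hl'
    gcongr
  refine (add_le_add q1 q2).trans (le_of_eq (by ring))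

theorem nk_low {b : X3 → V →L[ℝ] V} {q : X3 → V →L[ℝ] V →L[ℝ] V} (hb : ContDiff ℝ ∞ b)
    (hq : ContDiff ℝ ∞ q) (hu : Good u) (h1 : Sb k b C) (h2 : Sb k q C) (h3 : Sb p u s)
    (h4 : Nk k u n) (hp : p ≤ k) (hk : k ≤ 2 * p + 1) :
    Nk k (low b q u) (2 * (2 ^ k) ^ 2 * C * (1 + s) * n) := by
  have g1 := hu.ap_right hq
  have e1 := prod1 hb hu h1 h4
  have e2 := prod2 g1 hu (by omega) (sb_lu hq hu.1 h2 h3 hp) (prod1 hq hu h2 h4) h3 h4
  refine (e1.add e2 (hu.ap_right hb) (hu.ap_right g1.1)).mono le_rfl ?_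
  have hM := one_le_two_pow k
  have hC := h1.nonneg
  have hn := h4.nonneg
  generalize (2 : ℝ) ^ k = M at *
  have q1 : M * (C * n) ≤ 2 * M ^ 2 * (C * n) :=
    mul_le_mul_of_nonneg_right (by nlinarith) (mul_nonneg hC hn)
  nlinarith

theorem sb_term (ha : ContDiff ℝ ∞ a) (hl : ContDiff ℝ ∞ l) (hu : ContDiff ℝ ∞ u)
    (h1 : Sb k a C) (h2 : Sb k l C) (h3 : Sb (k + 1) u s) (hε : 0 < ε) (j : Fin 3) :
    Sb k (term a l ε j u) (2 ^ k * ((C + 2 ^ k * (C * s)) * s)) :=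
  (h1.add (h2.ap (h3.low k.le_succ) hl hu) ha (ap_sm hl hu)).ap (h3.fd hu hε j)
    (ha.add (ap_sm hl hu)) (fd_sm ε j hu)

theorem sb_low {b : X3 → V →L[ℝ] V} {q : X3 → V →L[ℝ] V →L[ℝ] V} (hb : ContDiff ℝ ∞ b)
    (hq : ContDiff ℝ ∞ q) (hu : ContDiff ℝ ∞ u) (h1 : Sb k b C) (h2 : Sb k q C)
    (h3 : Sb k u s) : Sb k (low b q u) (2 ^ k * ((C + 2 ^ k * (C * s)) * s)) :=
  ((h1.ap h3 hb hu).add ((h2.ap h3 hq hu).ap h3 (ap_sm hq hu) hu) (ap_sm hb hu)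
    (ap_sm (ap_sm hq hu) hu)).mono le_rfl (le_of_eq (by ring))

end

theorem sl_sm {W : Type} [NormedAddCommGroup W] [NormedSpace ℝ W] {f : ℝ × X3 → W}
    (hf : ContDiff ℝ ∞ f) (t : ℝ) : ContDiff ℝ ∞ (sl f t) :=
  hf.comp (contDiff_const.prodMk contDiff_id)

/-- The right side of the difference scheme. -/
noncomputable def Gd (S : Sys V) (ε t : ℝ) (u : X3 → V) : X3 → V :=
  term (sl (S.a 0) t) (sl (S.l 0) t) ε 0 u + term (sl (S.a 1) t) (sl (S.l 1) t) ε 1 u +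
    term (sl (S.a 2) t) (sl (S.l 2) t) ε 2 u + low (sl S.b t) (sl S.q t) u

theorem Gd_apply (S : Sys V) (ε t : ℝ) (u : X3 → V) (x : X3) :
    Gd S ε t u x = ∑ j, S.A j (t, x) (u x) (fd ε j u x) + S.F (t, x) (u x) := by
  rw [Fin.sum_univ_three]
  rfl

theorem good_tm {S : Sys V} (hS : S.Sm) (ε t : ℝ) {u : X3 → V} (hu : Good u) (j : Fin 3) :
    Good (term (sl (S.a j) t) (sl (S.l j) t) ε j u) :=
  good_term (sl_sm (hS.a j) t) (sl_sm (hS.l j) t) hu ε j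

theorem good_Gd {S : Sys V} (hS : S.Sm) (ε t : ℝ) {u : X3 → V} (hu : Good u) :
    Good (Gd S ε t u) :=
  (((good_tm hS ε t hu 0).add (good_tm hS ε t hu 1)).add (good_tm hS ε t hu 2)).add
    (good_low (sl_sm hS.b t) (sl_sm hS.q t) hu)

theorem sb_Gd {S : Sys V} (hS : S.Sm) {I : Set ℝ} {C : ℕ → ℝ} (hC : S.Bd I C) {ε t s : ℝ}
    (ht : t ∈ I) (hε : 0 < ε) {u : X3 → V} (hu : Good u) {k : ℕ} (h : Sb (k + 1) u s) :
    Sb k (Gd S ε t u) (4 * (2 ^ k * ((C k + 2 ^ k * (C k * s)) * s))) := by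
  obtain ⟨h1, h2, h3⟩ := hC k t ht
  have e := fun j => sb_term (sl_sm (hS.a j) t) (sl_sm (hS.l j) t) hu.1 (h1 j).1 (h1 j).2 h hε j
  have g := good_tm hS ε t hu
  have e' := sb_low (sl_sm hS.b t) (sl_sm hS.q t) hu.1 h2 h3 (h.low k.le_succ)
  exact ((((e 0).add (e 1) (g 0).1 (g 1).1).add (e 2) ((g 0).add (g 1)).1 (g 2).1).add e'
    (((g 0).add (g 1)).add (g 2)).1 (good_low (sl_sm hS.b t) (sl_sm hS.q t) hu).1).mono le_rfl
    (le_of_eq (by ring))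

/-- The constant of the energy estimate of order k. -/
noncomputable def LL (k : ℕ) (C s : ℝ) : ℝ := (6 * k + 8) * (2 ^ k) ^ 2 * C * (1 + s)

theorem LL_nonneg (k : ℕ) {C s : ℝ} (hC : 0 ≤ C) (hs : 0 ≤ s) : 0 ≤ LL k C s := by
  unfold LL
  positivity

/-- One step of the scheme. -/
theorem step [CompleteSpace V] {S : Sys V} (hS : S.OK) {I : Set ℝ} {C : ℕ → ℝ} (hC : S.Bd I C)
    {ε h t s n : ℝ} (ht : t ∈ I) (hε : 0 < ε) (hε1 : ε ≤ 1) (hh : |h| ≤ ε ^ 2) {u : X3 → V}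
    (hu : Good u) {k p : ℕ} (hp : p ≤ k) (hk : k ≤ 2 * p + 1) (h3 : Sb (p + 1) u s)
    (h4 : Nk (k + 1) u n) :
    Nk (k + 1) (u + h • Gd S ε t u)
      ((1 + ε ^ 2 * (LL (k + 1) (C (k + 1)) s + LL (k + 1) (C (k + 1)) s ^ 2)) * n) := by
  obtain ⟨h1, h2, h2'⟩ := hC (k + 1) t ht
  have g := good_tm hS.sm ε t hu
  have gl := good_low (sl_sm hS.sm.b t) (sl_sm hS.sm.q t) hu
  have gG := good_Gd hS.sm ε t hu
  have e := fun j => nk_term (sl_sm (hS.sm.a j) t) (sl_sm (hS.sm.l j) t) hu (h1 j).1 (h1 j).2 h3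
    h4 (by omega) (by omega) hε hε1 j
  have e' := nk_low (sl_sm hS.sm.b t) (sl_sm hS.sm.q t) hu h2 h2' h3 h4 (by omega) (by omega)
  have hC0 := h2.nonneg
  have hs := h3.nonneg
  have hn := h4.nonneg
  have hL := LL_nonneg (k + 1) hC0 hs
  have hX : 0 ≤ ((2 : ℝ) ^ (k + 1)) ^ 2 * C (k + 1) * (1 + s) := by positivity
  have eL : LL (k + 1) (C (k + 1)) s =
      (6 * (k + 1 : ℕ) + 8) * (((2 : ℝ) ^ (k + 1)) ^ 2 * C (k + 1) * (1 + s)) := by
    unfold LL; ring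
  have eG : Nk (k + 1) (Gd S ε t u) (LL (k + 1) (C (k + 1)) s * n / ε) := by
    refine ((((e 0).add (e 1) (g 0) (g 1)).add (e 2) ((g 0).add (g 1)) (g 2)).add
      (e'.mono le_rfl (le_div_self e'.nonneg hε hε1)) (((g 0).add (g 1)).add (g 2)) gl).mono
      le_rfl ?_
    rw [← add_div, ← add_div, ← add_div, eL]
    refine div_le_div_of_nonneg_right ?_ hε.le
    have : (0 : ℝ) ≤ (k + 1 : ℕ) := by positivity
    nlinarith [mul_nonneg this (mul_nonneg hX hn)]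
  intro α hα
  have gα := (hu.pdl α).c0
  have i := fun j => ip_term (sl_sm (hS.sm.a j) t) (sl_sm (hS.sm.l j) t) hu
    (fun x => hS.sa j _) (fun x => hS.sl j _) (h1 j).1 (h1 j).2 h3 h4 hp hk hε j α hα
  have i' := (abs_ip gα (gl.pdl α).c0).trans
    (mul_le_mul (h4 α hα) (e' α hα) (n2_nonneg _) hn)
  have eI : |ip (pdl α u) (pdl α (Gd S ε t u))| ≤ LL (k + 1) (C (k + 1)) s * n ^ 2 := by
    unfold Gd
    rw [pdl_add α (((g 0).add (g 1)).add (g 2)).1 gl.1, pdl_add α ((g 0).add (g 1)).1 (g 2).1,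
      pdl_add α (g 0).1 (g 1).1,
      ip_add gα ((((g 0).pdl α).add ((g 1).pdl α)).add ((g 2).pdl α)).c0.1 (gl.pdl α).c0.1,
      ip_add gα (((g 0).pdl α).add ((g 1).pdl α)).c0.1 ((g 2).pdl α).c0.1,
      ip_add gα ((g 0).pdl α).c0.1 ((g 1).pdl α).c0.1]
    refine ((abs_add_le _ _).trans (add_le_add ((abs_add_three _ _ _).trans
      (add_le_add (add_le_add (i 0) (i 1)) (i 2))) i')).trans ?_
    rw [eL]
    nlinarith [mul_nonneg hX (sq_nonneg n)]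
  rw [pdl_add α hu.1 (gG.smul h).1, pdl_smul α h gG.1]
  have hp0 : 0 ≤ (1 + ε ^ 2 * (LL (k + 1) (C (k + 1)) s + LL (k + 1) (C (k + 1)) s ^ 2)) * n := by
    positivity
  refine (le_abs_self _).trans (abs_le_of_sq_le_sq ?_ hp0)
  rw [n2_add_sq gα ((gG.pdl α).smul h).c0, ip_smul, n2_smul]
  have q1 : n2 (pdl α u) ^ 2 ≤ n ^ 2 := pow_le_pow_left₀ (n2_nonneg _) (h4 α hα) 2
  have q2 : h * ip (pdl α u) (pdl α (Gd S ε t u)) ≤ ε ^ 2 * (LL (k + 1) (C (k + 1)) s * n ^ 2) := by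
    refine (le_abs_self _).trans ?_
    rw [abs_mul]
    exact mul_le_mul hh eI (abs_nonneg _) (by positivity)
  have q3 : |h| * n2 (pdl α (Gd S ε t u)) ≤ ε * (LL (k + 1) (C (k + 1)) s * n) := by
    refine (mul_le_mul hh (eG α hα) (n2_nonneg _) (by positivity)).trans (le_of_eq ?_)
    field_simp
  have q4 := pow_le_pow_left₀ (mul_nonneg (abs_nonneg h) (n2_nonneg _)) q3 2
  generalize LL (k + 1) (C (k + 1)) s = L at *
  have q5 : 0 ≤ (ε ^ 2 * (L + L ^ 2) * n) ^ 2 := sq_nonneg _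
  have q6 : 0 ≤ (ε * (L * n)) ^ 2 := sq_nonneg _
  nlinarith

end Vale.Agent.P354H
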