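import Vale.Agent.P354H.Pre
import Vale.Agent.P354HL.Local
import Vale.Agent.P354HG.Global

namespace Vale.Agent.P354H

/-- Local existence for quadratic symmetric hyperbolic systems. -/
theorem localEx : LOCAL := Vale.Agent.P354HL.local_of pre

/-- Global existence from the a priori estimate. -/
theorem globalEx : GLOBAL := Vale.Agent.P354HG.global_of localEx

end Vale.Agent.P354H
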