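import Vale.Agent.P354H.Prod

open scoped ContDiff
open MeasureTheory Set Filter Topology

namespace Vale.Agent.P354H

section
variable {V V' : Type} [NormedAddCommGroup V] [NormedSpace ℝ V] [NormedAddCommGroup V']
  [NormedSpace ℝ V']

theorem pd_clm (L : V →L[ℝ] V') (j : Fin 3) {f : X3 → V} (hf : ContDiff ℝ ∞ f) :
    pd j (fun x => L (f x)) = fun x => L (pd j f x) := by
  funext x
  have h := (L.hasFDerivAt.comp x (dif hf x).hasFDerivAt).fderiv
  simp only [pd]
  rw [show fderiv ℝ (fun x => L (f x)) x = _ from h]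
  rfl

theorem pdl_clm (L : V →L[ℝ] V') (α : List (Fin 3)) {f : X3 → V} (hf : ContDiff ℝ ∞ f) :
    pdl α (fun x => L (f x)) = fun x => L (pdl α f x) := by
  induction α generalizing f with
  | nil => rfl
  | cons j α ih => simp only [pdl]; rw [pd_clm L j hf, ih (pd_sm j hf)]

theorem Good.clm {f : X3 → V} (hf : Good f) (L : V →L[ℝ] V') : Good (fun x => L (f x)) :=
  ⟨L.contDiff.comp hf.1, hf.2.comp_left (g := L) (map_zero L)⟩

theorem Nk.clm {k : ℕ} {f : X3 → V} {c : ℝ} (h : Nk k f c) (hf : Good f) (L : V →L[ℝ] V') :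
    Nk k (fun x => L (f x)) (‖L‖ * c) := fun α hα => by
  rw [pdl_clm L α hf.1]
  exact (n2_mono ((hf.pdl α).clm L).c0 (hf.pdl α).c0 (norm_nonneg L)
    fun x => L.le_opNorm _).trans (mul_le_mul_of_nonneg_left (h α hα) (norm_nonneg L))

theorem Sb.clm {k : ℕ} {f : X3 → V} {c : ℝ} (h : Sb k f c) (hf : ContDiff ℝ ∞ f)
    (L : V →L[ℝ] V') : Sb k (fun x => L (f x)) (‖L‖ * c) := fun α hα x => by
  rw [pdl_clm L α hf]
  exact (L.le_opNorm _).trans (mul_le_mul_of_nonneg_left (h α hα x) (norm_nonneg L))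

/-- The L1 norm of derivatives of a product. -/
theorem prodL1 (α : List (Fin 3)) {A : X3 → V →L[ℝ] V'} {w : X3 → V} {m n : ℝ} (hA : Good A)
    (hw : Good w) (h : Nk α.length A m) (h' : Nk α.length w n) :
    ∫ x, ‖pdl α (ap A w) x‖ ≤ 2 ^ α.length * (m * n) := by
  induction α generalizing A w with
  | nil =>
    simp only [pdl, List.length_nil, pow_zero, one_mul]
    refine (integral_mono (hw.ap_right hA.1).c0.norm.int (hA.c0.nn hw.c0)
      fun x => (A x).le_opNorm _).trans ((cs hA.c0 hw.c0).trans ?_)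
    exact mul_le_mul h.zero h'.zero (n2_nonneg _) h.nonneg
  | cons j α ih =>
    have g1 := ((hA.pd j).ap_left hw.1)
    have g2 := (hA.ap_left (hw.pd j).1)
    simp only [pdl, List.length_cons]
    rw [pd_ap j hA.1 hw.1, pdl_add α g1.1 g2.1]
    have h1 := ih (hA.pd j) hw (h.pd j) (h'.low (Nat.le_succ _))
    have h2 := ih hA (hw.pd j) (h.low (Nat.le_succ _)) (h'.pd j)
    refine (integral_mono ((g1.pdl α).add (g2.pdl α)).c0.norm.int
      ((g1.pdl α).c0.norm.int.add (g2.pdl α).c0.norm.int) fun x => norm_add_le _ _).trans ?_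
    refine (integral_add (g1.pdl α).c0.norm.int (g2.pdl α).c0.norm.int).trans_le ?_
    rw [pow_succ]
    linarith

theorem line_bound (j : Fin 3) {f : X3 → V} (hf : Good f) (x : X3) :
    ‖f x‖ₑ ≤ ∫⁻ s : ℝ, ‖pd j f (x + s • e j)‖ₑ := by
  have hi : Isometry (fun s : ℝ => x + s • e j) := Isometry.of_dist_eq fun a b => by
    rw [dist_add_left, dist_eq_norm, ← sub_smul, norm_smul, norm_e, mul_one, dist_eq_norm]
  have h1 : ContDiff ℝ 1 (fun s : ℝ => f (x + s • e j)) :=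
    (hf.1.of_le (by simp)).comp (contDiff_const.add (contDiff_id.smul contDiff_const))
  have h2 : HasCompactSupport (fun s : ℝ => f (x + s • e j)) :=
    hf.2.comp_isClosedEmbedding hi.isClosedEmbedding
  have h3 := HasCompactSupport.enorm_le_lintegral_Ici_deriv h1 h2 0
  simp only [zero_smul, add_zero] at h3
  refine h3.trans ((setLIntegral_le_lintegral _ _).trans (le_of_eq ?_))
  refine lintegral_congr fun s => ?_
  rw [(hasDerivAt_line j (dif hf.1) x s).deriv]

/-- A function is bounded by the integral of its mixed derivative. -/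
theorem le_int_mixed {f : X3 → V} (hf : Good f) (x : X3) :
    ‖f x‖ ≤ ∫ y, ‖pdl [0, 1, 2] f y‖ := by
  have hg := hf.pdl [0, 1, 2]
  have h1 : ‖f x‖ₑ ≤ ∫⁻ a : ℝ, ∫⁻ b : ℝ, ∫⁻ c : ℝ, ‖pdl [0, 1, 2] f ((a, b, c) + x)‖ₑ := by
    refine (line_bound 0 hf x).trans (lintegral_mono fun a => ?_)
    refine (line_bound 1 (hf.pd 0) _).trans (lintegral_mono fun b => ?_)
    refine (line_bound 2 ((hf.pd 0).pd 1) _).trans (lintegral_mono fun c => le_of_eq ?_)
    have : x + a • e 0 + b • e 1 + c • e 2 = (a, b, c) + x := by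
      ext <;> simp [e, add_comm]
    rw [this]
    rfl
  have hm : Measurable (fun y : X3 => ‖pdl [0, 1, 2] f (y + x)‖ₑ) :=
    (hg.tr x).1.continuous.enorm.measurable
  have h2 : ∫⁻ y : X3, ‖pdl [0, 1, 2] f (y + x)‖ₑ =
      ∫⁻ a : ℝ, ∫⁻ b : ℝ, ∫⁻ c : ℝ, ‖pdl [0, 1, 2] f ((a, b, c) + x)‖ₑ := by
    rw [Measure.volume_eq_prod, lintegral_prod _ hm.aemeasurable]
    refine lintegral_congr fun a => ?_
    rw [Measure.volume_eq_prod, lintegral_prod]
    exact (hm.comp (measurable_prodMk_left (x := a))).aemeasurable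
  rw [← h2] at h1
  have h3 := ofReal_integral_norm_eq_lintegral_enorm (hg.tr x).c0.int
  rw [← int_tr x (fun y => ‖pdl [0, 1, 2] f y‖)]
  refine (ENNReal.ofReal_le_ofReal_iff (integral_nonneg fun _ => norm_nonneg _)).1 ?_
  rw [ofReal_norm]
  exact h1.trans_eq h3.symm

end

section
variable {V : Type} [NormedAddCommGroup V] [InnerProductSpace ℝ V]

theorem sob0 {f : X3 → V} {c : ℝ} (hf : Good f) (h : Nk 3 f c) (x : X3) : ‖f x‖ ≤ 3 * c := by
  have hL : ‖(innerSL ℝ : V →L[ℝ] V →L[ℝ] ℝ)‖ ≤ 1 := norm_innerSL_le ℝ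
  have hA := hf.clm (innerSL ℝ : V →L[ℝ] V →L[ℝ] ℝ)
  have h1 := le_int_mixed (hA.ap_left hf.1) x
  have h2 := prodL1 [0, 1, 2] hA hf (h.clm hf _) h
  have h3 : ‖ap (fun x => (innerSL ℝ : V →L[ℝ] V →L[ℝ] ℝ) (f x)) f x‖ = ‖f x‖ ^ 2 := by
    simp [ap]
  have hc := h.nonneg
  refine (le_abs_self _).trans (abs_le_of_sq_le_sq ?_ (by positivity))
  rw [← h3]
  refine h1.trans (h2.trans ?_)
  have : ‖(innerSL ℝ : V →L[ℝ] V →L[ℝ] ℝ)‖ * c * c ≤ 1 * c * c := by gcongr
  have h8 : (2 : ℝ) ^ ([0, 1, 2] : List (Fin 3)).length = 8 := by norm_num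
  rw [h8]
  refine (mul_le_mul_of_nonneg_left this (by norm_num)).trans ?_
  nlinarith [mul_nonneg hc hc]

/-- Sobolev embedding for all orders. -/
theorem Nk.sb {k : ℕ} {f : X3 → V} {c : ℝ} (h : Nk (k + 3) f c) (hf : Good f) :
    Sb k f (3 * c) := fun α hα x =>
  sob0 (hf.pdl α) (Nk.pdl α (h.low (by omega))) x

end

theorem sob : SOB := by
  refine ⟨9, by norm_num, fun V _ _ f c hf h x => ?_⟩
  have h0 : 0 ≤ c := (isq_nonneg _).trans (h [] (Nat.zero_le _))
  have h1 := pow_le_pow_left₀ (norm_nonneg _) (sob0 hf h.nk x) 2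
  rw [mul_pow, Real.sq_sqrt h0] at h1
  linarith

end Vale.Agent.P354H
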