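import Vale.Agent.P354H.Defs

open scoped ContDiff
open MeasureTheory Set Filter Topology

namespace Vale.Agent.P354H

variable {V V' : Type} [NormedAddCommGroup V] [NormedSpace ℝ V] [NormedAddCommGroup V']
  [NormedSpace ℝ V']

/-- Pointwise application of a field of operators. -/
def ap (A : X3 → V →L[ℝ] V') (w : X3 → V) (x : X3) : V' := A x (w x)

theorem norm_e (j : Fin 3) : ‖e j‖ = 1 := by
  fin_cases j <;> simp [e, Prod.norm_def]

theorem dif {f : X3 → V} (hf : ContDiff ℝ ∞ f) : Differentiable ℝ f :=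
  hf.differentiable (by simp)

theorem pd_sm (j : Fin 3) {f : X3 → V} (hf : ContDiff ℝ ∞ f) : ContDiff ℝ ∞ (pd j f) :=
  (hf.fderiv_right (m := ∞) (by simp)).clm_apply contDiff_const

theorem pdl_sm (α : List (Fin 3)) {f : X3 → V} (hf : ContDiff ℝ ∞ f) :
    ContDiff ℝ ∞ (pdl α f) := by
  induction α generalizing f with
  | nil => exact hf
  | cons j α ih => exact ih (pd_sm j hf)

theorem pd_cs (j : Fin 3) {f : X3 → V} (hf : HasCompactSupport f) :
    HasCompactSupport (pd j f) := by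
  have h := hf.fderiv (𝕜 := ℝ)
  exact h.comp_left (g := fun L : X3 →L[ℝ] V => L (e j)) rfl

theorem Good.pd {f : X3 → V} (hf : Good f) (j : Fin 3) : Good (pd j f) :=
  ⟨pd_sm j hf.1, pd_cs j hf.2⟩

theorem Good.pdl {f : X3 → V} (hf : Good f) (α : List (Fin 3)) : Good (pdl α f) := by
  induction α generalizing f with
  | nil => exact hf
  | cons j α ih => exact ih (hf.pd j)

theorem Good.add {f g : X3 → V} (hf : Good f) (hg : Good g) : Good (f + g) :=
  ⟨hf.1.add hg.1, hf.2.add hg.2⟩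

theorem Good.neg {f : X3 → V} (hf : Good f) : Good (-f) := ⟨hf.1.neg, hf.2.neg⟩

theorem Good.sub {f g : X3 → V} (hf : Good f) (hg : Good g) : Good (f - g) := by
  rw [sub_eq_add_neg]; exact hf.add hg.neg

theorem Good.smul {f : X3 → V} (hf : Good f) (c : ℝ) : Good (c • f) :=
  ⟨hf.1.const_smul c, hf.2.comp_left (g := fun v : V => c • v) (smul_zero c)⟩

theorem good_zero : Good (0 : X3 → V) := ⟨contDiff_const, HasCompactSupport.zero⟩

theorem ap_sm {A : X3 → V →L[ℝ] V'} {w : X3 → V} (hA : ContDiff ℝ ∞ A) (hw : ContDiff ℝ ∞ w) :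
    ContDiff ℝ ∞ (ap A w) := hA.clm_apply hw

theorem Good.ap_right {A : X3 → V →L[ℝ] V'} {w : X3 → V} (hw : Good w) (hA : ContDiff ℝ ∞ A) :
    Good (ap A w) := by
  refine ⟨ap_sm hA hw.1, hw.2.mono fun x hx => ?_⟩
  intro h
  exact hx (by simp [ap, h])

theorem Good.ap_left {A : X3 → V →L[ℝ] V'} {w : X3 → V} (hA : Good A) (hw : ContDiff ℝ ∞ w) :
    Good (ap A w) := by
  refine ⟨ap_sm hA.1 hw, hA.2.mono fun x hx => ?_⟩
  intro h
  exact hx (by simp [ap, h])

theorem pd_add (j : Fin 3) {f g : X3 → V} (hf : ContDiff ℝ ∞ f) (hg : ContDiff ℝ ∞ g) :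
    pd j (f + g) = pd j f + pd j g := by
  funext x
  simp [pd, fderiv_add (dif hf x) (dif hg x)]

theorem pd_smul (j : Fin 3) (c : ℝ) {f : X3 → V} (hf : ContDiff ℝ ∞ f) :
    pd j (c • f) = c • pd j f := by
  funext x
  simp [pd, fderiv_const_smul (dif hf x)]

theorem pd_neg (j : Fin 3) (f : X3 → V) : pd j (-f) = -pd j f := by
  funext x
  simp [pd, fderiv_neg]

theorem pd_zero (j : Fin 3) : pd j (0 : X3 → V) = 0 := by
  funext x
  simp [pd]

theorem pd_ap (j : Fin 3) {A : X3 → V →L[ℝ] V'} {w : X3 → V} (hA : ContDiff ℝ ∞ A)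
    (hw : ContDiff ℝ ∞ w) : pd j (ap A w) = ap (pd j A) w + ap A (pd j w) := by
  funext x
  have h := fderiv_clm_apply (dif hA x) (dif hw x)
  simp only [pd, ap, Pi.add_apply]
  rw [show (fderiv ℝ (ap A w) x) = _ from h]
  simp [add_comm]

theorem pdl_add (α : List (Fin 3)) {f g : X3 → V} (hf : ContDiff ℝ ∞ f) (hg : ContDiff ℝ ∞ g) :
    pdl α (f + g) = pdl α f + pdl α g := by
  induction α generalizing f g with
  | nil => rfl
  | cons j α ih => simp only [pdl]; rw [pd_add j hf hg, ih (pd_sm j hf) (pd_sm j hg)]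

theorem pdl_smul (α : List (Fin 3)) (c : ℝ) {f : X3 → V} (hf : ContDiff ℝ ∞ f) :
    pdl α (c • f) = c • pdl α f := by
  induction α generalizing f with
  | nil => rfl
  | cons j α ih => simp only [pdl]; rw [pd_smul j c hf, ih (pd_sm j hf)]

theorem pdl_neg (α : List (Fin 3)) (f : X3 → V) : pdl α (-f) = -pdl α f := by
  induction α generalizing f with
  | nil => rfl
  | cons j α ih => simp only [pdl]; rw [pd_neg, ih]

theorem pdl_sub (α : List (Fin 3)) {f g : X3 → V} (hf : ContDiff ℝ ∞ f) (hg : ContDiff ℝ ∞ g) :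
    pdl α (f - g) = pdl α f - pdl α g := by
  rw [sub_eq_add_neg, pdl_add α (g := -g) hf hg.neg, pdl_neg, sub_eq_add_neg]

theorem pdl_zero (α : List (Fin 3)) : pdl α (0 : X3 → V) = 0 := by
  induction α with
  | nil => rfl
  | cons j α ih => simp only [pdl]; rw [pd_zero, ih]

theorem pdl_append (α β : List (Fin 3)) (f : X3 → V) : pdl (α ++ β) f = pdl β (pdl α f) := by
  induction α generalizing f with
  | nil => rfl
  | cons j α ih => exact ih _

theorem pd_pdl (j : Fin 3) (α : List (Fin 3)) (f : X3 → V) :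
    pd j (pdl α f) = pdl (α ++ [j]) f := by
  rw [pdl_append]; rfl

/-- Translation. -/
def tr {V : Type} (y : X3) (f : X3 → V) (x : X3) : V := f (x + y)

theorem tr_sm (y : X3) {f : X3 → V} (hf : ContDiff ℝ ∞ f) : ContDiff ℝ ∞ (tr y f) :=
  hf.comp (contDiff_id.add contDiff_const)

theorem Good.tr {f : X3 → V} (hf : Good f) (y : X3) : Good (tr y f) :=
  ⟨tr_sm y hf.1, hf.2.comp_homeomorph (Homeomorph.addRight y)⟩

theorem pd_tr (j : Fin 3) (y : X3) (f : X3 → V) : pd j (tr y f) = tr y (pd j f) := by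
  funext x
  simp only [pd, tr]
  rw [show P354H.tr y f = fun x => f (x + y) from rfl, fderiv_comp_add_right]

theorem pdl_tr (α : List (Fin 3)) (y : X3) (f : X3 → V) : pdl α (tr y f) = tr y (pdl α f) := by
  induction α generalizing f with
  | nil => rfl
  | cons j α ih => simp only [pdl]; rw [pd_tr, ih]

theorem Sb.zero {k : ℕ} {f : X3 → V} {c : ℝ} (h : Sb k f c) (x : X3) : ‖f x‖ ≤ c :=
  h [] (Nat.zero_le _) x

theorem Sb.nonneg {k : ℕ} {f : X3 → V} {c : ℝ} (h : Sb k f c) : 0 ≤ c :=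
  (norm_nonneg _).trans (h.zero 0)

theorem Sb.pd {k : ℕ} {f : X3 → V} {c : ℝ} (h : Sb (k + 1) f c) (j : Fin 3) :
    Sb k (pd j f) c := fun α hα x => h (j :: α) (by simpa using hα) x

theorem Sb.mono {k m : ℕ} {f : X3 → V} {c d : ℝ} (h : Sb k f c) (hm : m ≤ k) (hd : c ≤ d) :
    Sb m f d := fun α hα x => (h α (hα.trans hm) x).trans hd

theorem Sb.low {k m : ℕ} {f : X3 → V} {c : ℝ} (h : Sb k f c) (hm : m ≤ k) : Sb m f c :=
  h.mono hm le_rfl

theorem Sb.pdl {k : ℕ} {f : X3 → V} {c : ℝ} (β : List (Fin 3)) (h : Sb (k + β.length) f c) :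
    Sb k (pdl β f) c := fun α hα x => by
  rw [← pdl_append]
  exact h _ (by rw [List.length_append]; omega) x

theorem sb_succ {k : ℕ} {f : X3 → V} {c : ℝ} (h0 : ∀ x, ‖f x‖ ≤ c)
    (h : ∀ j, Sb k (pd j f) c) : Sb (k + 1) f c := by
  intro α hα x
  cases α with
  | nil => exact h0 x
  | cons j α => exact h j α (by simpa using hα) x

theorem sb_zero {f : X3 → V} {c : ℝ} (h0 : ∀ x, ‖f x‖ ≤ c) : Sb 0 f c := by
  intro α hα x
  cases α with
  | nil => exact h0 x
  | cons j α => simp at hα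

theorem Sb.add {k : ℕ} {f g : X3 → V} {c d : ℝ} (h : Sb k f c) (h' : Sb k g d)
    (hf : ContDiff ℝ ∞ f) (hg : ContDiff ℝ ∞ g) : Sb k (f + g) (c + d) := fun α hα x => by
  rw [pdl_add α hf hg]
  exact (norm_add_le _ _).trans (add_le_add (h α hα x) (h' α hα x))

theorem Sb.smul {k : ℕ} {f : X3 → V} {c : ℝ} (h : Sb k f c) (hf : ContDiff ℝ ∞ f) (a : ℝ) :
    Sb k (a • f) (|a| * c) := fun α hα x => by
  rw [pdl_smul α a hf, Pi.smul_apply, norm_smul, Real.norm_eq_abs]
  exact mul_le_mul_of_nonneg_left (h α hα x) (abs_nonneg a)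

theorem Sb.neg {k : ℕ} {f : X3 → V} {c : ℝ} (h : Sb k f c) : Sb k (-f) c := fun α hα x => by
  rw [pdl_neg, Pi.neg_apply, norm_neg]
  exact h α hα x

theorem Sb.tr {k : ℕ} {f : X3 → V} {c : ℝ} (h : Sb k f c) (y : X3) : Sb k (tr y f) c :=
  fun α hα x => by
    rw [pdl_tr]
    exact h α hα _

theorem Sb.ap {k : ℕ} {A : X3 → V →L[ℝ] V'} {w : X3 → V} {c d : ℝ} (h : Sb k A c)
    (h' : Sb k w d) (hA : ContDiff ℝ ∞ A) (hw : ContDiff ℝ ∞ w) :
    Sb k (ap A w) (2 ^ k * (c * d)) := by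
  induction k generalizing A w with
  | zero =>
    refine sb_zero fun x => ?_
    rw [pow_zero, one_mul]
    exact ((A x).le_opNorm _).trans (mul_le_mul (h.zero x) (h'.zero x) (norm_nonneg _) h.nonneg)
  | succ k ih =>
    have hcd : 0 ≤ c * d := mul_nonneg h.nonneg h'.nonneg
    refine sb_succ (fun x => ?_) fun j => ?_
    · refine (((A x).le_opNorm _).trans
        (mul_le_mul (h.zero x) (h'.zero x) (norm_nonneg _) h.nonneg)).trans ?_
      exact le_mul_of_one_le_left hcd (one_le_pow₀ (by norm_num))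
    · rw [pd_ap j hA hw]
      have h1 := ih (h.pd j) (h'.low k.le_succ) (pd_sm j hA) hw
      have h2 := ih (h.low k.le_succ) (h'.pd j) hA (pd_sm j hw)
      exact (h1.add h2 (ap_sm (pd_sm j hA) hw) (ap_sm hA (pd_sm j hw))).mono le_rfl
        (le_of_eq (by ring))

/-- The derivative along a coordinate line. -/
theorem hasDerivAt_line (j : Fin 3) {f : X3 → V} (hf : Differentiable ℝ f) (x : X3) (s : ℝ) :
    HasDerivAt (fun r : ℝ => f (x + r • e j)) (pd j f (x + s • e j)) s := by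
  have h1 : HasDerivAt (fun r : ℝ => x + r • e j) (e j) s := by
    simpa using ((hasDerivAt_id s).smul_const (e j)).const_add x
  exact (hf (x + s • e j)).hasFDerivAt.comp_hasDerivAt s h1

/-- Mean value inequality along a coordinate line. -/
theorem line_lip (j : Fin 3) {f : X3 → V} (hf : Differentiable ℝ f) {c : ℝ}
    (hc : ∀ x, ‖pd j f x‖ ≤ c) (x : X3) (s : ℝ) : ‖f (x + s • e j) - f x‖ ≤ c * |s| := by
  have h := Convex.norm_image_sub_le_of_norm_hasDerivWithin_le (𝕜 := ℝ) (s := univ)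
    (f := fun r : ℝ => f (x + r • e j)) (f' := fun r => pd j f (x + r • e j)) (C := c)
    (fun r _ => (hasDerivAt_line j hf x r).hasDerivWithinAt) (fun r _ => hc _) convex_univ
    (mem_univ 0) (mem_univ s)
  simpa using h

end Vale.Agent.P354H
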