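import Mathlib

open scoped ContDiff
open MeasureTheory Set Filter Topology

namespace Vale.Agent.P354H

/-- Space. Space-time is ℝ × X3 (which is R4), the first coordinate is the time. -/
abbrev X3 : Type := ℝ × ℝ × ℝ

/-- The coordinate vectors of space. -/
def e : Fin 3 → X3 := ![(1, 0, 0), (0, 1, 0), (0, 0, 1)]

section
variable {V : Type} [NormedAddCommGroup V] [NormedSpace ℝ V]

/-- Partial derivative in space. -/
noncomputable def pd (j : Fin 3) (f : X3 → V) (x : X3) : V := fderiv ℝ f x (e j)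

/-- Iterated partial derivative along a word; the head of the word is applied first. -/
noncomputable def pdl : List (Fin 3) → (X3 → V) → X3 → V
  | [], f => f
  | j :: α, f => pdl α (pd j f)

/-- Time derivative and space derivatives of a function on space-time. -/
noncomputable def dt (W : ℝ × X3 → V) (p : ℝ × X3) : V := fderiv ℝ W p (1, 0)
noncomputable def dx (j : Fin 3) (W : ℝ × X3 → V) (p : ℝ × X3) : V := fderiv ℝ W p (0, e j)

/-- The slice of W at time t. -/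
def sl {V : Type} (W : ℝ × X3 → V) (t : ℝ) (x : X3) : V := W (t, x)

/-- Smooth with compact support. -/
def Good (f : X3 → V) : Prop := ContDiff ℝ ∞ f ∧ HasCompactSupport f

/-- All derivatives of order at most k are bounded by c. -/
def Sb (k : ℕ) (f : X3 → V) (c : ℝ) : Prop :=
  ∀ α : List (Fin 3), α.length ≤ k → ∀ x, ‖pdl α f x‖ ≤ c

/-- The squares of the L2 norms of all derivatives of order at most k are bounded by c. -/
def Hk (k : ℕ) (f : X3 → V) (c : ℝ) : Prop :=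
  ∀ α : List (Fin 3), α.length ≤ k → ∫ x, ‖pdl α f x‖ ^ 2 ≤ c

end

/-- The system dt W = sum over j of (a j + l j W) (dx j W) + b W + q W W. -/
structure Sys (V : Type) [NormedAddCommGroup V] [NormedSpace ℝ V] where
  a : Fin 3 → ℝ × X3 → V →L[ℝ] V
  l : Fin 3 → ℝ × X3 → V →L[ℝ] V →L[ℝ] V
  b : ℝ × X3 → V →L[ℝ] V
  q : ℝ × X3 → V →L[ℝ] V →L[ℝ] V

section
variable {V : Type} [NormedAddCommGroup V] [NormedSpace ℝ V]

/-- The principal coefficients and the lower order term. -/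
noncomputable def Sys.A (S : Sys V) (j : Fin 3) (p : ℝ × X3) (w : V) : V →L[ℝ] V :=
  S.a j p + S.l j p w
noncomputable def Sys.F (S : Sys V) (p : ℝ × X3) (w : V) : V := S.b p w + S.q p w w

/-- W solves the system at the point p. -/
def Sys.Holds (S : Sys V) (W : ℝ × X3 → V) (p : ℝ × X3) : Prop :=
  dt W p = ∑ j, S.A j p (W p) (dx j W p) + S.F p (W p)

/-- The space derivatives of order at most k of the coefficients are bounded by C k for times
in I. -/
def Sys.Bd (S : Sys V) (I : Set ℝ) (C : ℕ → ℝ) : Prop :=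
  ∀ k, ∀ t ∈ I, (∀ j, Sb k (sl (S.a j) t) (C k) ∧ Sb k (sl (S.l j) t) (C k)) ∧
    Sb k (sl S.b t) (C k) ∧ Sb k (sl S.q t) (C k)

/-- The right side of the system on a function u of space at time t. -/
noncomputable def Sys.G (S : Sys V) (t : ℝ) (u : X3 → V) (x : X3) : V :=
  ∑ j, S.A j (t, x) (u x) (pd j u x) + S.F (t, x) (u x)

/-- A solution on the time set I which is smooth in space, with all space derivatives jointly
continuous, and once differentiable in time. -/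
structure Pre (S : Sys V) (I : Set ℝ) (U : ℝ → X3 → V) : Prop where
  smooth : ∀ t ∈ I, ContDiff ℝ ∞ (U t)
  cont : ∀ α, ContinuousOn (fun p : ℝ × X3 => pdl α (U p.1) p.2) (I ×ˢ univ)
  deriv : ∀ t ∈ I, ∀ x, HasDerivWithinAt (fun s => U s x) (S.G t (U t) x) I t

/-- The coefficients are smooth. -/
structure Sys.Sm (S : Sys V) : Prop where
  a : ∀ j, ContDiff ℝ ∞ (S.a j)
  l : ∀ j, ContDiff ℝ ∞ (S.l j)
  b : ContDiff ℝ ∞ S.b
  q : ContDiff ℝ ∞ S.q

end

section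
variable {V : Type} [NormedAddCommGroup V] [InnerProductSpace ℝ V]

/-- Symmetric operator. -/
def Sym (A : V →L[ℝ] V) : Prop := ∀ v w, inner ℝ (A v) w = inner ℝ v (A w)

/-- The coefficients are smooth and the principal part is symmetric. -/
structure Sys.OK (S : Sys V) : Prop where
  sm : S.Sm
  sa : ∀ j p, Sym (S.a j p)
  sl : ∀ j p w, Sym (S.l j p w)

end

/-- Sobolev embedding. -/
def SOB : Prop :=
  ∃ K : ℝ, 0 ≤ K ∧ ∀ (V : Type) [NormedAddCommGroup V] [InnerProductSpace ℝ V] (f : X3 → V) (c : ℝ),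
    Good f → Hk 3 f c → ∀ x, ‖f x‖ ^ 2 ≤ K * c

/-- Regularity in space-time. -/
def SMOOTH : Prop :=
  ∀ (V : Type) [NormedAddCommGroup V] [NormedSpace ℝ V] [FiniteDimensional ℝ V] (S : Sys V)
    (s t : ℝ) (U : ℝ → X3 → V), S.Sm → Pre S (Ioo s t) U →
    ContDiffOn ℝ ∞ (fun p : ℝ × X3 => U p.1 p.2) (Ioo s t ×ˢ univ)

/-- Uniqueness in a domain of dependence. The domain is the part of the strip t0 ≤ t ≤ t1 where
all φ i are negative; its closure lies in the compact set D, in the open set O. -/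
def UNIQ : Prop :=
  ∀ (V : Type) [NormedAddCommGroup V] [InnerProductSpace ℝ V] [FiniteDimensional ℝ V]
    (ι : Type) [Fintype ι] (φ : ι → ℝ × X3 → ℝ) (A : Fin 3 → ℝ × X3 → V →L[ℝ] V)
    (Z : ℝ × X3 → V) (O D : Set (ℝ × X3)) (t0 t1 K : ℝ),
    IsOpen O → IsCompact D → D ⊆ O → (∀ i, ContDiff ℝ 1 (φ i)) →
    (∀ j, ContDiffOn ℝ 1 (A j) O) → ContDiffOn ℝ 1 Z O →
    (∀ p, p.1 ∈ Icc t0 t1 → (∀ i, φ i p < 0) → p ∈ D ∧ (∀ j, Sym (A j p)) ∧
      ‖dt Z p - ∑ j, A j p (dx j Z p)‖ ≤ K * ‖Z p‖ ∧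
      ∀ i z, ∑ j, dx j (φ i) p * inner ℝ z (A j p z) ≤ dt (φ i) p * ‖z‖ ^ 2) →
    (∀ x, (∀ i, φ i (t0, x) < 0) → Z (t0, x) = 0) →
    ∀ p, p.1 ∈ Icc t0 t1 → (∀ i, φ i p < 0) → Z p = 0

/-- Local existence in the class Pre. -/
def PRE : Prop :=
  ∀ (C : ℕ → ℝ) (R : ℝ), ∃ δ c : ℝ, 0 < δ ∧ δ ≤ 1 ∧
    ∀ (V : Type) [NormedAddCommGroup V] [InnerProductSpace ℝ V] [FiniteDimensional ℝ V]
      (S : Sys V) (t0 : ℝ) (w : X3 → V), S.OK → S.Bd (Icc (t0 - 1) (t0 + 1)) C → Good w →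
      Hk 8 w R → ∃ U, Pre S (Ioo (t0 - δ) (t0 + δ)) U ∧ U t0 = w ∧
        ∀ t ∈ Ioo (t0 - δ) (t0 + δ), Sb 1 (U t) c

/-- Local existence of smooth solutions with compact support. -/
def LOCAL : Prop :=
  ∀ (C : ℕ → ℝ) (R : ℝ), ∃ δ : ℝ, 0 < δ ∧ δ ≤ 1 ∧
    ∀ (V : Type) [NormedAddCommGroup V] [InnerProductSpace ℝ V] [FiniteDimensional ℝ V]
      (S : Sys V) (t0 : ℝ) (w : X3 → V), S.OK → S.Bd (Icc (t0 - 1) (t0 + 1)) C → Good w →
      Hk 8 w R → ∃ W, ContDiff ℝ ∞ W ∧ HasCompactSupport W ∧ sl W t0 = w ∧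
        ∀ p : ℝ × X3, p.1 ∈ Icc (t0 - δ) (t0 + δ) → S.Holds W p

/-- The a priori estimate: smooth solutions with compact support and datum w stay bounded in H8
on bounded time intervals. -/
def Apr {V : Type} [NormedAddCommGroup V] [NormedSpace ℝ V] (S : Sys V) (w : X3 → V) : Prop :=
  ∀ T, ∃ R, ∀ T' ∈ Icc 0 T, ∀ W, ContDiff ℝ ∞ W → HasCompactSupport W → sl W 0 = w →
    (∀ p : ℝ × X3, p.1 ∈ Icc 0 T' → S.Holds W p) → Hk 8 (sl W T') R

/-- Global existence from the a priori estimate. -/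
def GLOBAL : Prop :=
  ∀ (C : ℕ → ℝ) (R : ℝ), ∃ δ : ℝ, 0 < δ ∧ δ ≤ 1 ∧
    ∀ (V : Type) [NormedAddCommGroup V] [InnerProductSpace ℝ V] [FiniteDimensional ℝ V]
      (S : Sys V) (w : X3 → V), S.OK → S.Bd (Icc (-1) 1) C → (∀ T, ∃ C', S.Bd (Icc (-1) T) C') →
      Good w → Hk 8 w R → Apr S w →
      ∃ W, ContDiff ℝ ∞ W ∧ sl W 0 = w ∧ (∀ p : ℝ × X3, -δ ≤ p.1 → S.Holds W p) ∧
        ∀ T, ∃ W', ContDiff ℝ ∞ W' ∧ HasCompactSupport W' ∧
          ∀ p : ℝ × X3, p.1 < T → W' p = W p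

end Vale.Agent.P354H
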