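import Vale.Agent.P354H.Sob

open scoped ContDiff
open MeasureTheory Set Filter Topology

namespace Vale.Agent.P354H

section
variable {V : Type} [NormedAddCommGroup V] [NormedSpace ℝ V]

/-- Central difference quotient. -/
noncomputable def fd (ε : ℝ) (j : Fin 3) (f : X3 → V) : X3 → V :=
  (2 * ε)⁻¹ • (tr (ε • e j) f + -tr ((-ε) • e j) f)

theorem fd_apply (ε : ℝ) (j : Fin 3) (f : X3 → V) (x : X3) :
    fd ε j f x = (2 * ε)⁻¹ • (f (x + ε • e j) - f (x + (-ε) • e j)) := by
  simp only [fd, Pi.smul_apply, Pi.add_apply, Pi.neg_apply, tr, sub_eq_add_neg]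

theorem fd_sm (ε : ℝ) (j : Fin 3) {f : X3 → V} (hf : ContDiff ℝ ∞ f) :
    ContDiff ℝ ∞ (fd ε j f) := ((tr_sm _ hf).add (tr_sm _ hf).neg).const_smul _

theorem Good.fd {f : X3 → V} (hf : Good f) (ε : ℝ) (j : Fin 3) : Good (fd ε j f) :=
  ((hf.tr _).add (hf.tr _).neg).smul _

theorem pdl_fd (α : List (Fin 3)) (ε : ℝ) (j : Fin 3) {f : X3 → V} (hf : ContDiff ℝ ∞ f) :
    pdl α (fd ε j f) = fd ε j (pdl α f) := by
  have h1 : ContDiff ℝ ∞ (-tr ((-ε) • e j) f) := (tr_sm _ hf).neg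
  have h2 : ContDiff ℝ ∞ (tr (ε • e j) f + -tr ((-ε) • e j) f) := (tr_sm _ hf).add h1
  unfold fd
  rw [pdl_smul α _ h2, pdl_add α (tr_sm _ hf) h1, pdl_neg, pdl_tr, pdl_tr]

theorem Nk.fd {k : ℕ} {f : X3 → V} {c ε : ℝ} (h : Nk k f c) (hf : Good f) (hε : 0 < ε)
    (j : Fin 3) : Nk k (fd ε j f) (c / ε) := by
  have h1 := ((h.tr (ε • e j)).add (h.tr ((-ε) • e j)).neg (hf.tr _) (hf.tr _).neg).smul
    ((hf.tr _).add (hf.tr _).neg).1 (2 * ε)⁻¹
  refine h1.mono le_rfl (le_of_eq ?_)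
  rw [abs_of_pos (by positivity)]
  field_simp
  ring

theorem fd_le {f : X3 → V} {c ε : ℝ} (j : Fin 3) (hf : Differentiable ℝ f) (hε : 0 < ε)
    (h : ∀ x, ‖pd j f x‖ ≤ c) (x : X3) : ‖fd ε j f x‖ ≤ c := by
  have h1 := line_lip j hf h x ε
  have h2 := line_lip j hf h x (-ε)
  rw [abs_neg] at h2
  rw [abs_of_pos hε] at h1 h2
  have h3 := (norm_sub_le_norm_sub_add_norm_sub (f (x + ε • e j)) (f x) (f (x + (-ε) • e j)))
  rw [norm_sub_rev (f x)] at h3
  rw [fd_apply, norm_smul, Real.norm_eq_abs, abs_of_pos (by positivity),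
    inv_mul_le_iff₀ (by positivity)]
  linarith

theorem Sb.fd {k : ℕ} {f : X3 → V} {c ε : ℝ} (h : Sb (k + 1) f c) (hf : ContDiff ℝ ∞ f)
    (hε : 0 < ε) (j : Fin 3) : Sb k (fd ε j f) c := fun α hα x => by
  rw [pdl_fd α ε j hf]
  refine fd_le j (dif (pdl_sm α hf)) hε (fun y => ?_) x
  rw [pd_pdl]
  exact h _ (by simpa using hα) y

theorem fd_close {f : X3 → V} {c ε : ℝ} (h : Sb 2 f c) (hf : ContDiff ℝ ∞ f) (hε : 0 < ε)
    (j : Fin 3) (x : X3) : ‖fd ε j f x - pd j f x‖ ≤ c * ε := by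
  have h1 := Convex.norm_image_sub_le_of_norm_hasDerivWithin_le (𝕜 := ℝ) (s := Icc (-ε) ε)
    (f := fun r : ℝ => f (x + r • e j) - r • pd j f x)
    (f' := fun r => pd j f (x + r • e j) - pd j f x) (C := c * ε)
    (fun r _ => ((hasDerivAt_line j (dif hf) x r).sub
      (by simpa using (hasDerivAt_id r).smul_const (pd j f x))).hasDerivWithinAt)
    (fun r hr => (line_lip j (dif (pd_sm j hf)) (fun y => h [j, j] le_rfl y) x r).trans
      (mul_le_mul_of_nonneg_left (abs_le.2 hr) h.nonneg)) (convex_Icc _ _)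
    (left_mem_Icc.2 (by linarith)) (right_mem_Icc.2 (by linarith))
  have h2 : fd ε j f x - pd j f x = (2 * ε)⁻¹ • ((f (x + ε • e j) - ε • pd j f x) -
      (f (x + (-ε) • e j) - (-ε) • pd j f x)) := by
    have : pd j f x = (2 * ε)⁻¹ • ((2 * ε) • pd j f x) := by
      rw [inv_smul_smul₀ (by positivity)]
    rw [fd_apply]
    nth_rewrite 1 [this]
    rw [← smul_sub]
    congr 1
    module
  rw [h2, norm_smul, Real.norm_eq_abs, abs_of_pos (by positivity),
    inv_mul_le_iff₀ (by positivity)]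
  rw [Real.norm_eq_abs, abs_of_pos (by linarith)] at h1
  linarith

theorem sq_int_le {φ : ℝ → ℝ} (hφ : Continuous φ) {a b : ℝ} (hab : a < b) :
    (∫ s in a..b, φ s) ^ 2 ≤ (b - a) * ∫ s in a..b, φ s ^ 2 := by
  set I := ∫ s in a..b, φ s with hI
  have hp : 0 < b - a := sub_pos.2 hab
  have h0 : 0 ≤ ∫ s in a..b, ((b - a) ^ 2 * φ s ^ 2 - 2 * (b - a) * I * φ s + I ^ 2) :=
    intervalIntegral.integral_nonneg hab.le fun s _ => by
      nlinarith [sq_nonneg ((b - a) * φ s - I)]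
  have i1 : IntervalIntegrable (fun s => (b - a) ^ 2 * φ s ^ 2) volume a b :=
    (by fun_prop : Continuous fun s => (b - a) ^ 2 * φ s ^ 2).intervalIntegrable a b
  have i2 : IntervalIntegrable (fun s => 2 * (b - a) * I * φ s) volume a b :=
    (by fun_prop : Continuous fun s => 2 * (b - a) * I * φ s).intervalIntegrable a b
  rw [intervalIntegral.integral_add (i1.sub i2) intervalIntegrable_const,
    intervalIntegral.integral_sub i1 i2, intervalIntegral.integral_const_mul,
    intervalIntegral.integral_const_mul, intervalIntegral.integral_const, ← hI, smul_eq_mul] at h0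
  refine le_of_mul_le_mul_left ?_ hp
  nlinarith

theorem n2_fd [CompleteSpace V] {f : X3 → V} {ε : ℝ} (hf : Good f) (hε : 0 < ε) (j : Fin 3) :
    n2 (fd ε j f) ≤ n2 (pd j f) := by
  have hg := (hf.pd j).c0
  have hc : Continuous fun p : ℝ × X3 => ‖pd j f (p.2 + p.1 • e j)‖ ^ 2 :=
    ((hg.1.comp (by fun_prop)).norm).pow 2
  have h1 : ∀ x, ‖fd ε j f x‖ ^ 2 ≤ (2 * ε)⁻¹ * ∫ s in (-ε)..ε, ‖pd j f (x + s • e j)‖ ^ 2 := by
    intro x
    have hc1 : Continuous fun s : ℝ => pd j f (x + s • e j) := hg.1.comp (by fun_prop)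
    have h2 := intervalIntegral.integral_eq_sub_of_hasDerivAt (a := -ε) (b := ε)
      (fun s _ => hasDerivAt_line j (dif hf.1) x s) (hc1.intervalIntegrable _ _)
    have h3 := intervalIntegral.norm_integral_le_integral_norm (μ := volume)
      (f := fun s : ℝ => pd j f (x + s • e j)) (a := -ε) (b := ε) (by linarith)
    have h4 := sq_int_le hc1.norm (a := -ε) (b := ε) (by linarith)
    have h5 := (pow_le_pow_left₀ (norm_nonneg _) h3 2).trans h4
    rw [fd_apply, ← h2, norm_smul, Real.norm_eq_abs, abs_of_pos (by positivity), mul_pow, pow_two,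
      mul_assoc]
    refine mul_le_mul_of_nonneg_left ?_ (by positivity)
    rw [inv_mul_le_iff₀ (by positivity)]
    refine h5.trans (le_of_eq (by ring))
  have hs : ∀ s : ℝ, ∫ x, ‖pd j f (x + s • e j)‖ ^ 2 = n2 (pd j f) ^ 2 := fun s => by
    rw [int_tr (s • e j) (fun x => ‖pd j f x‖ ^ 2), n2_sq]
  have hi : Integrable (Function.uncurry fun (s : ℝ) (x : X3) => ‖pd j f (x + s • e j)‖ ^ 2)
      ((volume.restrict (Ioc (-ε) ε)).prod volume) := by
    refine (integrable_prod_iff hc.aestronglyMeasurable).2 ⟨Eventually.of_forall fun s =>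
      (hg.tr (s • e j)).sq, ?_⟩
    simp only [Function.uncurry, norm_pow, norm_norm, hs]
    exact integrable_const _
  have hw := integral_integral_swap hi
  refine n2_le_of_sq (n2_nonneg _) ?_
  have hi2 := hi.integral_prod_right
  simp only [intervalIntegral.integral_of_le (show -ε ≤ ε by linarith)] at h1
  refine (integral_mono (hf.fd ε j).c0.sq (hi2.const_mul _) h1).trans ?_
  rw [integral_const_mul]
  simp only [Function.uncurry]
  rw [← hw]
  simp only [hs]
  rw [setIntegral_const, Real.volume_real_Ioc_of_le (by linarith), smul_eq_mul, ← mul_assoc,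
    show ε - -ε = 2 * ε by ring, inv_mul_cancel₀ (by positivity), one_mul]

theorem Nk.fd' [CompleteSpace V] {k : ℕ} {f : X3 → V} {c ε : ℝ} (h : Nk (k + 1) f c)
    (hf : Good f) (hε : 0 < ε) (j : Fin 3) : Nk k (P354H.fd ε j f) c := fun α hα => by
  rw [pdl_fd α ε j hf.1]
  refine (n2_fd (hf.pdl α) hε j).trans ?_
  rw [pd_pdl]
  exact h _ (by simpa using hα)

end

section
variable {V : Type} [NormedAddCommGroup V] [InnerProductSpace ℝ V]

/-- The L2 scalar product. -/
noncomputable def ip (f g : X3 → V) : ℝ := ∫ x, inner ℝ (f x) (g x)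

theorem C0.inner {f g : X3 → V} (hf : C0 f) (hg : Continuous g) :
    Integrable (fun x => inner ℝ (f x) (g x)) :=
  C0.int ⟨hf.1.inner hg, hf.2.mono fun x hx h => hx (by simp [h])⟩

theorem abs_ip {f g : X3 → V} (hf : C0 f) (hg : C0 g) : |ip f g| ≤ n2 f * n2 g := by
  refine (abs_integral_le_integral_abs).trans (le_trans ?_ (cs hf hg))
  exact integral_mono (hf.inner hg.1).abs (hf.nn hg) fun x => abs_real_inner_le_norm _ _

theorem ip_add {f g h : X3 → V} (hf : C0 f) (hg : Continuous g) (hh : Continuous h) :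
    ip f (g + h) = ip f g + ip f h := by
  simp only [ip, Pi.add_apply, inner_add_right]
  exact integral_add (hf.inner hg) (hf.inner hh)

theorem ip_smul (f g : X3 → V) (a : ℝ) : ip f (a • g) = a * ip f g := by
  simp only [ip, Pi.smul_apply, inner_smul_right, integral_const_mul]

theorem n2_add_sq {f g : X3 → V} (hf : C0 f) (hg : C0 g) :
    n2 (f + g) ^ 2 = n2 f ^ 2 + 2 * ip f g + n2 g ^ 2 := by
  simp only [n2_sq, Pi.add_apply, norm_add_sq_real]
  rw [int3 hf.sq ((hf.inner hg.1).const_mul _) hg.sq, integral_const_mul, ip]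

/-- The basic energy estimate for the central difference. -/
theorem ip_fd {A : X3 → V →L[ℝ] V} {w : X3 → V} {s ε : ℝ} (j : Fin 3) (hA : ContDiff ℝ ∞ A)
    (hs : ∀ x, Sym (A x)) (h : ∀ x, ‖pd j A x‖ ≤ s) (hw : C0 w) (hε : 0 < ε) :
    |ip w (ap A (fd ε j w))| ≤ s * n2 w ^ 2 := by
  have hAc := hA.continuous
  have s0 : 0 ≤ s := (norm_nonneg _).trans (h 0)
  have c1 : Continuous (ap A (tr (ε • e j) w)) := hAc.clm_apply (hw.tr _).1
  have c2 : Continuous (ap A (tr ((-ε) • e j) w)) := hAc.clm_apply (hw.tr _).1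
  have cA : Continuous (tr (ε • e j) A) := (tr_sm _ hA).continuous
  have c3 : Continuous (ap (tr (ε • e j) A) (tr (ε • e j) w)) := cA.clm_apply (hw.tr _).1
  have h1 : ip w (ap A (tr ((-ε) • e j) w)) = ip w (ap (tr (ε • e j) A) (tr (ε • e j) w)) := by
    unfold ip
    rw [← int_tr (ε • e j)]
    refine integral_congr_ae (Eventually.of_forall fun x => ?_)
    simp only [ap, tr, neg_smul, add_neg_cancel_right]
    rw [← hs, real_inner_comm]
  have h2 : ip w (ap A (fd ε j w)) =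
      (2 * ε)⁻¹ * ip w (ap (A - tr (ε • e j) A) (tr (ε • e j) w)) := by
    have e1 : ap A (fd ε j w) = (2 * ε)⁻¹ • (ap A (tr (ε • e j) w) +
        (-1 : ℝ) • ap A (tr ((-ε) • e j) w)) := by
      funext x
      simp [ap, fd]
    have e2 : ap (A - tr (ε • e j) A) (tr (ε • e j) w) = ap A (tr (ε • e j) w) +
        (-1 : ℝ) • ap (tr (ε • e j) A) (tr (ε • e j) w) := by
      funext x
      simp [ap, sub_eq_add_neg]
    rw [e1, e2, ip_smul, ip_add hw c1 (c2.const_smul _), ip_add hw c1 (c3.const_smul _), ip_smul,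
      ip_smul, h1]
  have c4 : C0 (ap (A - tr (ε • e j) A) (tr (ε • e j) w)) :=
    ⟨(hAc.sub cA).clm_apply (hw.tr _).1, (hw.tr (ε • e j)).2.mono fun x hx h =>
      hx (by simp only [ap]; rw [h, map_zero])⟩
  have h3 : n2 (ap (A - tr (ε • e j) A) (tr (ε • e j) w)) ≤ (s * ε) * n2 w := by
    rw [← n2_tr (ε • e j) w]
    refine n2_ap (hAc.sub cA) (hw.tr _) fun x => ?_
    have := line_lip j (dif hA) h x ε
    rw [abs_of_pos hε, norm_sub_rev] at this
    exact this
  rw [h2, abs_mul, abs_of_pos (by positivity), inv_mul_le_iff₀ (by positivity)]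
  refine (abs_ip hw c4).trans ((mul_le_mul_of_nonneg_left h3 (n2_nonneg w)).trans ?_)
  have := mul_nonneg (mul_nonneg s0 hε.le) (sq_nonneg (n2 w))
  nlinarith

end

end Vale.Agent.P354H
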