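import Vale.Agent.P354H.Calc

open scoped ContDiff
open MeasureTheory Set Filter Topology

namespace Vale.Agent.P354H

variable {V V' : Type} [NormedAddCommGroup V] [NormedSpace ℝ V] [NormedAddCommGroup V']
  [NormedSpace ℝ V']

/-- Continuous with compact support. -/
def C0 {V : Type} [NormedAddCommGroup V] (f : X3 → V) : Prop :=
  Continuous f ∧ HasCompactSupport f

/-- The L2 norm. -/
noncomputable def n2 {V : Type} [NormedAddCommGroup V] (f : X3 → V) : ℝ :=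
  √(∫ x, ‖f x‖ ^ 2)

/-- The L2 norms of all derivatives of order at most k are bounded by c. -/
def Nk (k : ℕ) (f : X3 → V) (c : ℝ) : Prop :=
  ∀ α : List (Fin 3), α.length ≤ k → n2 (pdl α f) ≤ c

theorem Good.c0 {f : X3 → V} (hf : Good f) : C0 f := ⟨hf.1.continuous, hf.2⟩

section
omit [NormedSpace ℝ V] [NormedSpace ℝ V']

theorem C0.int {f : X3 → V} (hf : C0 f) : Integrable f :=
  hf.1.integrable_of_hasCompactSupport hf.2

theorem C0.norm {f : X3 → V} (hf : C0 f) : C0 (fun x => ‖f x‖) := ⟨hf.1.norm, hf.2.norm⟩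

theorem C0.mul {f g : X3 → ℝ} (hf : C0 f) (hg : Continuous g) : C0 (fun x => f x * g x) :=
  ⟨hf.1.mul hg, hf.2.mul_right⟩

theorem C0.add {f g : X3 → V} (hf : C0 f) (hg : C0 g) : C0 (f + g) :=
  ⟨hf.1.add hg.1, hf.2.add hg.2⟩

theorem C0.neg {f : X3 → V} (hf : C0 f) : C0 (-f) := ⟨hf.1.neg, hf.2.neg⟩

theorem C0.sub {f g : X3 → V} (hf : C0 f) (hg : C0 g) : C0 (f - g) := by
  rw [sub_eq_add_neg]; exact hf.add hg.neg

theorem C0.tr {f : X3 → V} (hf : C0 f) (y : X3) : C0 (tr y f) :=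
  ⟨hf.1.comp (continuous_id.add continuous_const), hf.2.comp_homeomorph (Homeomorph.addRight y)⟩

theorem C0.sq {f : X3 → V} (hf : C0 f) : Integrable (fun x => ‖f x‖ ^ 2) := by
  simpa [pow_two] using (hf.norm.mul hf.1.norm).int

theorem C0.nn {f : X3 → V} {g : X3 → V'} (hf : C0 f) (hg : C0 g) :
    Integrable (fun x => ‖f x‖ * ‖g x‖) := (hf.norm.mul hg.1.norm).int

theorem rinv : (volume : Measure X3).IsAddRightInvariant :=
  inferInstanceAs ((volume : Measure ℝ).prod (volume : Measure (ℝ × ℝ))).IsAddRightInvariant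

theorem haar : (volume : Measure X3).IsAddHaarMeasure :=
  inferInstanceAs ((volume : Measure ℝ).prod (volume : Measure (ℝ × ℝ))).IsAddHaarMeasure

theorem int_tr {V : Type} [NormedAddCommGroup V] [NormedSpace ℝ V] (y : X3) (f : X3 → V) :
    ∫ x, f (x + y) = ∫ x, f x :=
  haveI := rinv
  integral_add_right_eq_self f y

theorem int3 {a b c : X3 → ℝ} (ha : Integrable a) (hb : Integrable b) (hc : Integrable c) :
    ∫ x, (a x + b x + c x) = (∫ x, a x) + (∫ x, b x) + ∫ x, c x := by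
  rw [← integral_add ha hb]
  exact integral_add (ha.add hb) hc

theorem isq_nonneg (f : X3 → V) : 0 ≤ ∫ x, ‖f x‖ ^ 2 := integral_nonneg fun _ => sq_nonneg _

theorem n2_nonneg (f : X3 → V) : 0 ≤ n2 f := Real.sqrt_nonneg _

theorem n2_sq (f : X3 → V) : n2 f ^ 2 = ∫ x, ‖f x‖ ^ 2 := Real.sq_sqrt (isq_nonneg f)

theorem n2_le_of_sq {f : X3 → V} {c : ℝ} (hc : 0 ≤ c) (h : ∫ x, ‖f x‖ ^ 2 ≤ c ^ 2) :
    n2 f ≤ c := Real.sqrt_le_iff.2 ⟨hc, h⟩

/-- Cauchy-Schwarz. -/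
theorem cs {f : X3 → V} {g : X3 → V'} (hf : C0 f) (hg : C0 g) :
    ∫ x, ‖f x‖ * ‖g x‖ ≤ n2 f * n2 g := by
  have h : ∀ t : ℝ, 0 ≤ (∫ x, ‖f x‖ ^ 2) * (t * t) + (-2 * ∫ x, ‖f x‖ * ‖g x‖) * t +
      ∫ x, ‖g x‖ ^ 2 := by
    intro t
    have h0 : 0 ≤ ∫ x, (‖f x‖ ^ 2 * (t * t) + (-2 * t) * (‖f x‖ * ‖g x‖) + ‖g x‖ ^ 2) :=
      integral_nonneg fun x => by
        have : 0 ≤ (‖f x‖ * t - ‖g x‖) ^ 2 := sq_nonneg _
        simp only [Pi.zero_apply]
        nlinarith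
    rw [int3 (hf.sq.mul_const _) ((hf.nn hg).const_mul _) hg.sq, integral_mul_const,
      integral_const_mul] at h0
    linarith
  have hd := discrim_le_zero h
  rw [discrim, ← n2_sq f, ← n2_sq g] at hd
  refine (le_abs_self _).trans (abs_le_of_sq_le_sq ?_ (mul_nonneg (n2_nonneg f) (n2_nonneg g)))
  nlinarith

theorem n2_mono {f : X3 → V} {g : X3 → V'} (hf : C0 f) (hg : C0 g) {c : ℝ} (hc : 0 ≤ c)
    (h : ∀ x, ‖f x‖ ≤ c * ‖g x‖) : n2 f ≤ c * n2 g := by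
  refine n2_le_of_sq (mul_nonneg hc (n2_nonneg g)) ?_
  rw [mul_pow, n2_sq, ← integral_const_mul]
  refine integral_mono hf.sq (hg.sq.const_mul _) fun x => ?_
  simp only [← mul_pow]
  exact pow_le_pow_left₀ (norm_nonneg _) (h x) 2

theorem n2_add {f g : X3 → V} (hf : C0 f) (hg : C0 g) : n2 (f + g) ≤ n2 f + n2 g := by
  refine n2_le_of_sq (add_nonneg (n2_nonneg f) (n2_nonneg g)) ?_
  have h1 : ∫ x, ‖(f + g) x‖ ^ 2 ≤ ∫ x, (‖f x‖ ^ 2 + 2 * (‖f x‖ * ‖g x‖) + ‖g x‖ ^ 2) := by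
    refine integral_mono (hf.add hg).sq ((hf.sq.add ((hf.nn hg).const_mul _)).add hg.sq)
      fun x => ?_
    have h2 := pow_le_pow_left₀ (norm_nonneg _) (norm_add_le (f x) (g x)) 2
    simp only [Pi.add_apply]
    nlinarith
  rw [int3 hf.sq ((hf.nn hg).const_mul _) hg.sq, integral_const_mul, ← n2_sq f, ← n2_sq g] at h1
  have := cs hf hg
  nlinarith

theorem n2_neg (f : X3 → V) : n2 (-f) = n2 f := by simp [n2]

theorem n2_sub {f g : X3 → V} (hf : C0 f) (hg : C0 g) : n2 (f - g) ≤ n2 f + n2 g := by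
  rw [sub_eq_add_neg, ← n2_neg g]; exact n2_add hf hg.neg

theorem n2_zero : n2 (0 : X3 → V) = 0 := by simp [n2]

theorem n2_tr (y : X3) (f : X3 → V) : n2 (tr y f) = n2 f := by
  unfold n2 tr
  rw [int_tr y (fun x => ‖f x‖ ^ 2)]

end

theorem n2_smul (a : ℝ) (f : X3 → V) : n2 (a • f) = |a| * n2 f := by
  unfold n2
  simp only [Pi.smul_apply, norm_smul, mul_pow, integral_const_mul, Real.norm_eq_abs]
  rw [Real.sqrt_mul (sq_nonneg _), Real.sqrt_sq (abs_nonneg a)]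

theorem Nk.zero {k : ℕ} {f : X3 → V} {c : ℝ} (h : Nk k f c) : n2 f ≤ c := h [] (Nat.zero_le _)

theorem Nk.nonneg {k : ℕ} {f : X3 → V} {c : ℝ} (h : Nk k f c) : 0 ≤ c :=
  (n2_nonneg _).trans h.zero

theorem Nk.pd {k : ℕ} {f : X3 → V} {c : ℝ} (h : Nk (k + 1) f c) (j : Fin 3) :
    Nk k (pd j f) c := fun α hα => h (j :: α) (by simpa using hα)

theorem Nk.mono {k m : ℕ} {f : X3 → V} {c d : ℝ} (h : Nk k f c) (hm : m ≤ k) (hd : c ≤ d) :
    Nk m f d := fun α hα => (h α (hα.trans hm)).trans hd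

theorem Nk.low {k m : ℕ} {f : X3 → V} {c : ℝ} (h : Nk k f c) (hm : m ≤ k) : Nk m f c :=
  h.mono hm le_rfl

theorem Nk.pdl {k : ℕ} {f : X3 → V} {c : ℝ} (β : List (Fin 3)) (h : Nk (k + β.length) f c) :
    Nk k (pdl β f) c := fun α hα => by
  rw [← pdl_append]
  exact h _ (by rw [List.length_append]; omega)

theorem nk_succ {k : ℕ} {f : X3 → V} {c : ℝ} (h0 : n2 f ≤ c) (h : ∀ j, Nk k (pd j f) c) :
    Nk (k + 1) f c := by
  intro α hα
  cases α with
  | nil => exact h0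
  | cons j α => exact h j α (by simpa using hα)

theorem nk_zero {f : X3 → V} {c : ℝ} (h0 : n2 f ≤ c) : Nk 0 f c := by
  intro α hα
  cases α with
  | nil => exact h0
  | cons j α => simp at hα

theorem Nk.add {k : ℕ} {f g : X3 → V} {c d : ℝ} (h : Nk k f c) (h' : Nk k g d) (hf : Good f)
    (hg : Good g) : Nk k (f + g) (c + d) := fun α hα => by
  rw [pdl_add α hf.1 hg.1]
  exact (n2_add (hf.pdl α).c0 (hg.pdl α).c0).trans (add_le_add (h α hα) (h' α hα))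

theorem Nk.neg {k : ℕ} {f : X3 → V} {c : ℝ} (h : Nk k f c) : Nk k (-f) c := fun α hα => by
  rw [pdl_neg, n2_neg]; exact h α hα

theorem Nk.smul {k : ℕ} {f : X3 → V} {c : ℝ} (h : Nk k f c) (hf : ContDiff ℝ ∞ f) (a : ℝ) :
    Nk k (a • f) (|a| * c) := fun α hα => by
  rw [pdl_smul α a hf, n2_smul]
  exact mul_le_mul_of_nonneg_left (h α hα) (abs_nonneg a)

theorem Nk.tr {k : ℕ} {f : X3 → V} {c : ℝ} (h : Nk k f c) (y : X3) : Nk k (tr y f) c :=
  fun α hα => by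
    rw [pdl_tr, n2_tr]
    exact h α hα

theorem Hk.nk {k : ℕ} {f : X3 → V} {c : ℝ} (h : Hk k f c) : Nk k f (√c) :=
  fun α hα => Real.sqrt_le_sqrt (h α hα)

theorem Nk.hk {k : ℕ} {f : X3 → V} {c : ℝ} (h : Nk k f c) : Hk k f (c ^ 2) := fun α hα => by
  rw [← n2_sq]
  exact pow_le_pow_left₀ (n2_nonneg _) (h α hα) 2

/-- Finitely many numbers are bounded. -/
theorem ex_nk (f : X3 → V) (k : ℕ) : ∃ c, Nk k f c := by
  induction k generalizing f with
  | zero => exact ⟨_, nk_zero le_rfl⟩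
  | succ k ih =>
    choose c hc using fun j => ih (pd j f)
    refine ⟨n2 f + ∑ j, c j, nk_succ (le_add_of_nonneg_right
      (Finset.sum_nonneg fun j _ => (hc j).nonneg)) fun j => (hc j).mono le_rfl ?_⟩
    exact (Finset.single_le_sum (fun j _ => (hc j).nonneg) (Finset.mem_univ j)).trans
      (le_add_of_nonneg_left (n2_nonneg f))

end Vale.Agent.P354H
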