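import Vale.Agent.P354H.Calc
import Vale.Agent.P354HL.Smooth

open scoped ContDiff
open MeasureTheory Set Filter Topology

namespace Vale.Agent.P354H

open Vale.Agent.P354HL (co clm_eq)

variable {V : Type} [NormedAddCommGroup V] [NormedSpace ℝ V]

theorem abs_co (j : Fin 3) (x : X3) : |co j x| ≤ ‖x‖ := by
  have h1 := norm_fst_le x
  have h2 := (norm_fst_le x.2).trans (norm_snd_le x)
  have h3 := (norm_snd_le x.2).trans (norm_snd_le x)
  fin_cases j
  exacts [h1, h2, h3]

theorem norm_clm_le {T : X3 →L[ℝ] V} {c : ℝ} (h : ∀ j, ‖T (e j)‖ ≤ c) : ‖T‖ ≤ 3 * c := by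
  have hc : 0 ≤ c := (norm_nonneg _).trans (h 0)
  refine T.opNorm_le_bound (by positivity) fun x => ?_
  have h1 : T x = ∑ j, co j x • T (e j) := by
    conv_lhs => rw [clm_eq T]
    simp
  have h2 : ∀ j, ‖co j x • T (e j)‖ ≤ ‖x‖ * c := fun j => by
    rw [norm_smul]
    exact mul_le_mul (abs_co j x) (h j) (norm_nonneg _) (norm_nonneg _)
  rw [h1, Fin.sum_univ_three]
  refine (norm_add₃_le).trans ?_
  linarith [h2 0, h2 1, h2 2]

theorem Sb.lip {f : X3 → V} {c : ℝ} (h : Sb 1 f c) (hf : ContDiff ℝ ∞ f) (x y : X3) :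
    ‖f y - f x‖ ≤ 3 * c * ‖y - x‖ :=
  Convex.norm_image_sub_le_of_norm_fderiv_le (𝕜 := ℝ) (s := univ) (fun z _ => dif hf z)
    (fun z _ => norm_clm_le fun j => h [j] le_rfl z) convex_univ (mem_univ x) (mem_univ y)

theorem taylor2 {f : X3 → V} {c : ℝ} (h : Sb 2 f c) (hf : ContDiff ℝ ∞ f) (x y : X3) :
    ‖f y - f x - ∑ j, co j (y - x) • pd j f x‖ ≤ 9 * c * ‖y - x‖ * ‖y - x‖ := by
  have h1 := Convex.norm_image_sub_le_of_norm_fderiv_le' (𝕜 := ℝ)
    (s := Metric.closedBall x ‖y - x‖) (φ := fderiv ℝ f x) (C := 9 * c * ‖y - x‖)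
    (fun z _ => dif hf z) (fun z hz => ?_) (convex_closedBall _ _)
    (Metric.mem_closedBall_self (norm_nonneg _)) (mem_closedBall_iff_norm.2 le_rfl)
  · have h2 : fderiv ℝ f x (y - x) = ∑ j, co j (y - x) • pd j f x := by
      conv_lhs => rw [clm_eq (fderiv ℝ f x)]
      simp [pd]
    rwa [h2] at h1
  · refine (norm_clm_le (c := 3 * c * ‖y - x‖) fun j => ?_).trans (le_of_eq (by ring))
    refine ((h.pd j).lip (pd_sm j hf) x z).trans ?_
    have := h.nonneg
    exact mul_le_mul_of_nonneg_left (mem_closedBall_iff_norm.1 hz) (by positivity)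

/-- Limits of smooth functions with bounded derivatives. -/
theorem lim_space {ι : Type} {F : Filter ι} [F.NeBot] {f : ι → X3 → V}
    {g : List (Fin 3) → X3 → V} (hf : ∀ m, ContDiff ℝ ∞ (f m))
    (hb : ∀ k, ∃ c, ∀ m, Sb k (f m) c)
    (hg : ∀ α x, Tendsto (fun m => pdl α (f m) x) F (𝓝 (g α x))) :
    ContDiff ℝ ∞ (g []) ∧ ∀ α, pdl α (g []) = g α := by
  have h1 : ∀ α x, HasFDerivAt (g α) (∑ j, (co j).smulRight (g (α ++ [j]) x)) x := by
    intro α x
    obtain ⟨c, hc⟩ := hb (2 + α.length)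
    have h2 : ∀ y, ‖g α y - g α x - ∑ j, co j (y - x) • g (α ++ [j]) x‖ ≤
        9 * c * ‖y - x‖ * ‖y - x‖ := fun y => by
      refine le_of_tendsto' (((hg α y).sub (hg α x)).sub (tendsto_finsetSum _ fun j _ =>
        (hg (α ++ [j]) x).const_smul (co j (y - x)))).norm fun m => ?_
      simp only [← pd_pdl]
      exact taylor2 ((hc m).pdl α) (pdl_sm α (hf m)) x y
    rw [hasFDerivAt_iff_isLittleO, Asymptotics.isLittleO_iff]
    intro η hη
    have h3 : Tendsto (fun y => 9 * c * ‖y - x‖) (𝓝 x) (𝓝 (9 * c * ‖x - x‖)) :=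
      (by fun_prop : Continuous fun y : X3 => 9 * c * ‖y - x‖).tendsto x
    rw [sub_self, norm_zero, mul_zero] at h3
    filter_upwards [h3.eventually (ge_mem_nhds hη)] with y hy
    have h4 := (h2 y).trans (mul_le_mul_of_nonneg_right hy (norm_nonneg _))
    simpa using h4
  have h2 : ∀ α j, pd j (g α) = g (α ++ [j]) := fun α j => by
    funext x
    rw [pd, (h1 α x).fderiv, Fin.sum_univ_three]
    fin_cases j <;> simp [co, e]
  have h3 : ∀ n : ℕ, ∀ α, ContDiff ℝ n (g α) := by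
    intro n
    induction n with
    | zero => exact fun α => contDiff_zero.2 (continuous_iff_continuousAt.2 fun x =>
        (h1 α x).continuousAt)
    | succ n ih =>
      intro α
      rw [Nat.cast_succ, contDiff_succ_iff_hasFDerivAt]
      exact ⟨_, ContDiff.sum fun j _ => contDiff_const.smulRight (ih _), h1 α⟩
  refine ⟨contDiff_infty.2 fun n => h3 n [], fun α => ?_⟩
  have h4 : ∀ α β, pdl α (g β) = g (β ++ α) := by
    intro α
    induction α with
    | nil => simp [pdl]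
    | cons j α ih => intro β; rw [pdl, h2, ih]; simp
  simpa using h4 α []

/-- Telescoping. -/
theorem tele {a : ℕ → V} {v : V} {η : ℝ} {n m : ℕ} (hnm : n ≤ m)
    (h : ∀ i, n ≤ i → i < m → ‖a (i + 1) - a i - v‖ ≤ η) :
    ‖a m - a n - ((m : ℝ) - n) • v‖ ≤ ((m : ℝ) - n) * η := by
  induction m, hnm using Nat.le_induction with
  | base => simp
  | succ m hm ih =>
    have h1 := ih fun i hi hi' => h i hi (hi'.trans m.lt_succ_self)
    have h2 := h m hm m.lt_succ_self
    have e1 : a (m + 1) - a n - (((m + 1 : ℕ) : ℝ) - n) • v =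
        (a m - a n - ((m : ℝ) - n) • v) + (a (m + 1) - a m - v) := by
      push_cast
      module
    rw [e1]
    refine (norm_add_le _ _).trans ((add_le_add h1 h2).trans (le_of_eq ?_))
    push_cast
    ring

theorem tele' {a : ℕ → V} {v : V} {η : ℝ} (n m : ℕ)
    (h : ∀ i, min n m ≤ i → i < max n m → ‖a (i + 1) - a i - v‖ ≤ η) :
    ‖a m - a n - ((m : ℝ) - n) • v‖ ≤ |(m : ℝ) - n| * η := by
  rcases le_total n m with hnm | hnm
  · rw [min_eq_left hnm, max_eq_right hnm] at h
    rw [abs_of_nonneg (sub_nonneg.2 (Nat.cast_le.2 hnm))]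
    exact tele hnm h
  · rw [min_eq_right hnm, max_eq_left hnm] at h
    rw [abs_sub_comm, abs_of_nonneg (sub_nonneg.2 (Nat.cast_le.2 hnm)), ← norm_neg]
    refine le_of_eq_of_le (congrArg _ ?_) (tele hnm h)
    module

theorem Pre.congr {S : Sys V} {I : Set ℝ} {U U' : ℝ → X3 → V} (h : Pre S I U)
    (e : ∀ t ∈ I, U' t = U t) : Pre S I U' :=
  ⟨fun t ht => e t ht ▸ h.smooth t ht,
    fun α => (h.cont α).congr fun p hp => by simp only [e _ hp.1],
    fun t ht x => by
      rw [e t ht]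
      exact (h.deriv t ht x).congr (fun s hs => by rw [e s hs]) (by rw [e t ht])⟩

theorem Pre.mono {S : Sys V} {I J : Set ℝ} {U : ℝ → X3 → V} (h : Pre S I U) (e : J ⊆ I) :
    Pre S J U :=
  ⟨fun t ht => h.smooth t (e ht), fun α => (h.cont α).mono (prod_mono e le_rfl),
    fun t ht x => (h.deriv t (e ht) x).mono e⟩

theorem Pre.union {S : Sys V} {I J : Set ℝ} {U : ℝ → X3 → V} (h : Pre S I U) (h' : Pre S J U)
    (hI : IsClosed I) (hJ : IsClosed J) : Pre S (I ∪ J) U := by
  refine ⟨fun t ht => ht.elim (h.smooth t) (h'.smooth t), fun α => ?_, fun t ht x => ?_⟩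
  · rw [union_prod]
    exact (h.cont α).union_of_isClosed (h'.cont α) (hI.prod isClosed_univ) (hJ.prod isClosed_univ)
  · refine HasDerivWithinAt.union ?_ ?_
    · by_cases hi : t ∈ I
      · exact h.deriv t hi x
      · exact HasFDerivWithinAt.of_notMem_closure (by rwa [hI.closure_eq])
    · by_cases hj : t ∈ J
      · exact h'.deriv t hj x
      · exact HasFDerivWithinAt.of_notMem_closure (by rwa [hJ.closure_eq])

end Vale.Agent.P354H
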