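import Vale.Agent.P354H.Energy

open scoped ContDiff
open MeasureTheory Set Filter Topology

namespace Vale.Agent.P354H

variable {V : Type} [NormedAddCommGroup V] [InnerProductSpace ℝ V]

/-- Explicit Euler steps of size h with central differences of size ε. -/
noncomputable def sch (S : Sys V) (ε h t0 : ℝ) (w : X3 → V) : ℕ → X3 → V
  | 0 => w
  | n + 1 => sch S ε h t0 w n + h • Gd S ε (t0 + n * h) (sch S ε h t0 w n)

theorem good_sch {S : Sys V} (hS : S.Sm) (ε h t0 : ℝ) {w : X3 → V} (hw : Good w) (n : ℕ) :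
    Good (sch S ε h t0 w n) := by
  induction n with
  | zero => exact hw
  | succ n ih => exact ih.add ((good_Gd hS ε _ ih).smul h)

theorem time_mem {ε h δ : ℝ} (t0 : ℝ) (hh : |h| ≤ ε ^ 2) (hδ : δ ≤ 1) {n : ℕ}
    (hn : n * ε ^ 2 ≤ δ) : t0 + n * h ∈ Icc (t0 - 1) (t0 + 1) := by
  have h1 : |n * h| ≤ 1 := by
    rw [abs_mul, Nat.abs_cast]
    exact (mul_le_mul_of_nonneg_left hh n.cast_nonneg).trans (hn.trans hδ)
  have := abs_le.1 h1
  constructor <;> linarith [this.1, this.2]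

/-- Discrete Gronwall inequality. -/
theorem grow [CompleteSpace V] {S : Sys V} (hS : S.OK) {C : ℕ → ℝ} {t0 : ℝ}
    (hC : S.Bd (Icc (t0 - 1) (t0 + 1)) C) {ε h δ s r Λ : ℝ} (hε : 0 < ε) (hε1 : ε ≤ 1)
    (hh : |h| ≤ ε ^ 2) (hδ : δ ≤ 1) {w : X3 → V} (hw : Good w) {k p : ℕ} (hp : p ≤ k)
    (hk : k ≤ 2 * p + 1) (hr : Nk (k + 1) w r)
    (hΛ : LL (k + 1) (C (k + 1)) s + LL (k + 1) (C (k + 1)) s ^ 2 ≤ Λ)
    (hs : ∀ n : ℕ, n * ε ^ 2 ≤ δ → Nk (k + 1) (sch S ε h t0 w n) (Real.exp (n * ε ^ 2 * Λ) * r) →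
      Sb (p + 1) (sch S ε h t0 w n) s) (n : ℕ) (hn : n * ε ^ 2 ≤ δ) :
    Nk (k + 1) (sch S ε h t0 w n) (Real.exp (n * ε ^ 2 * Λ) * r) := by
  induction n with
  | zero => simpa [sch] using hr
  | succ n ih =>
    have hn' : n * ε ^ 2 ≤ δ := by
      refine le_trans ?_ hn
      push_cast
      nlinarith [sq_nonneg ε]
    have h1 := step hS hC (time_mem t0 hh hδ hn') hε hε1 hh (good_sch hS.sm ε h t0 hw n) hp hk
      (hs n hn' (ih hn')) (ih hn')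
    refine h1.mono le_rfl ?_
    rw [← mul_assoc]
    refine mul_le_mul_of_nonneg_right ?_ hr.nonneg
    rw [show ((n + 1 : ℕ) : ℝ) * ε ^ 2 * Λ = ε ^ 2 * Λ + n * ε ^ 2 * Λ by push_cast; ring,
      Real.exp_add]
    refine mul_le_mul_of_nonneg_right ?_ (Real.exp_pos _).le
    refine le_trans ?_ (Real.add_one_le_exp _)
    rw [add_comm]
    exact add_le_add_left (mul_le_mul_of_nonneg_left hΛ (sq_nonneg ε)) _

/-- The length of the time interval. -/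
noncomputable def del (C : ℕ → ℝ) (r : ℝ) : ℝ :=
  Real.log 2 / (|LL 8 (C 8) (3 * (2 * r)) + LL 8 (C 8) (3 * (2 * r)) ^ 2| + 1)

theorem del_pos (C : ℕ → ℝ) (r : ℝ) : 0 < del C r :=
  div_pos (Real.log_pos (by norm_num)) (by positivity)

theorem del_le (C : ℕ → ℝ) (r : ℝ) : del C r ≤ 1 := by
  unfold del
  rw [div_le_one (by positivity)]
  have := Real.log_two_lt_d9
  have := abs_nonneg (LL 8 (C 8) (3 * (2 * r)) + LL 8 (C 8) (3 * (2 * r)) ^ 2)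
  linarith

section
variable [CompleteSpace V] {S : Sys V} {C : ℕ → ℝ} {t0 r : ℝ} {w : X3 → V}

theorem base (hS : S.OK) (hC : S.Bd (Icc (t0 - 1) (t0 + 1)) C) (hw : Good w) (hr : Nk 8 w r)
    {ε h : ℝ} (hε : 0 < ε) (hε1 : ε ≤ 1) (hh : |h| ≤ ε ^ 2) (n : ℕ)
    (hn : n * ε ^ 2 ≤ del C r) : Nk 8 (sch S ε h t0 w n) (2 * r) := by
  have he : ∀ n : ℕ, n * ε ^ 2 ≤ del C r → Real.exp (n * ε ^ 2 *
      |LL 8 (C 8) (3 * (2 * r)) + LL 8 (C 8) (3 * (2 * r)) ^ 2|) * r ≤ 2 * r := by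
    intro n hn
    refine mul_le_mul_of_nonneg_right ?_ hr.nonneg
    rw [← Real.exp_log (show (0 : ℝ) < 2 by norm_num), Real.exp_le_exp]
    refine (mul_le_mul_of_nonneg_right hn (abs_nonneg _)).trans ?_
    unfold del
    rw [div_mul_eq_mul_div, div_le_iff₀ (by positivity), Real.exp_log (by norm_num)]
    exact mul_le_mul_of_nonneg_left (by linarith) (Real.log_pos (by norm_num)).le
  refine (grow (k := 7) (p := 3) (s := 3 * (2 * r)) hS hC hε hε1 hh (del_le C r) hw (by norm_num)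
    (by norm_num) hr (le_abs_self _) (fun n hn h1 => ?_) n hn).mono le_rfl (he n hn)
  exact Nk.sb (h1.mono (by norm_num) (he n hn)) (good_sch hS.sm ε h t0 hw n)

theorem higher (hS : S.OK) (hC : S.Bd (Icc (t0 - 1) (t0 + 1)) C) (hw : Good w) (hr : Nk 8 w r)
    (m : ℕ) : ∃ c, ∀ ε h : ℝ, 0 < ε → ε ≤ 1 → |h| ≤ ε ^ 2 → ∀ n : ℕ, n * ε ^ 2 ≤ del C r →
      Nk (m + 8) (sch S ε h t0 w n) c := by
  induction m with
  | zero => exact ⟨2 * r, fun ε h hε hε1 hh n hn => base hS hC hw hr hε hε1 hh n hn⟩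
  | succ m ih =>
    obtain ⟨c, hc⟩ := ih
    obtain ⟨r', hr'⟩ := ex_nk w (m + 8 + 1)
    refine ⟨Real.exp (|LL (m + 8 + 1) (C (m + 8 + 1)) (3 * c) +
      LL (m + 8 + 1) (C (m + 8 + 1)) (3 * c) ^ 2|) * r', fun ε h hε hε1 hh n hn => ?_⟩
    refine (grow (k := m + 8) (p := m + 4) (s := 3 * c) hS hC hε hε1 hh (del_le C r) hw
      (by omega) (by omega) hr' (le_abs_self _) (fun n hn _ => ?_) n hn).mono (by omega) ?_
    · exact Nk.sb ((hc ε h hε hε1 hh n hn).low (by omega)) (good_sch hS.sm ε h t0 hw n)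
    · refine mul_le_mul_of_nonneg_right (Real.exp_le_exp.2 ?_) hr'.nonneg
      exact mul_le_of_le_one_left (abs_nonneg _) (hn.trans (del_le C r))

/-- Uniform bounds of all derivatives of the scheme and of its increments. -/
theorem sch_bd (hS : S.OK) (hC : S.Bd (Icc (t0 - 1) (t0 + 1)) C) (hw : Good w) (hr : Nk 8 w r)
    (k : ℕ) : ∃ c, ∀ ε h : ℝ, 0 < ε → ε ≤ 1 → |h| ≤ ε ^ 2 → ∀ n : ℕ, n * ε ^ 2 ≤ del C r →
      Sb k (sch S ε h t0 w n) c ∧ Sb k (Gd S ε (t0 + n * h) (sch S ε h t0 w n)) c := by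
  obtain ⟨c, hc⟩ := higher hS hC hw hr k
  refine ⟨max (3 * c) (4 * (2 ^ k * ((C k + 2 ^ k * (C k * (3 * c))) * (3 * c)))),
    fun ε h hε hε1 hh n hn => ?_⟩
  have hg := good_sch hS.sm ε h t0 hw n
  have h1 : Sb (k + 1) (sch S ε h t0 w n) (3 * c) :=
    Nk.sb ((hc ε h hε hε1 hh n hn).low (by omega)) hg
  exact ⟨h1.mono k.le_succ (le_max_left _ _), (sb_Gd hS.sm hC (time_mem t0 hh (del_le C r) hn)
    hε hg h1).mono le_rfl (le_max_right _ _)⟩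

theorem sch_bd1 (hS : S.OK) (hC : S.Bd (Icc (t0 - 1) (t0 + 1)) C) (hw : Good w) (hr : Nk 8 w r)
    {ε h : ℝ} (hε : 0 < ε) (hε1 : ε ≤ 1) (hh : |h| ≤ ε ^ 2) (n : ℕ)
    (hn : n * ε ^ 2 ≤ del C r) : Sb 1 (sch S ε h t0 w n) (3 * (2 * r)) :=
  Nk.sb ((base hS hC hw hr hε hε1 hh n hn).low (by norm_num)) (good_sch hS.sm ε h t0 hw n)

end

end Vale.Agent.P354H
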