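import Vale.Agent.P354H.Lim
import Vale.Agent.P354H.Scheme

open scoped ContDiff
open MeasureTheory Set Filter Topology

namespace Vale.Agent.P354H

variable {V : Type} [NormedAddCommGroup V] [InnerProductSpace ℝ V]

/-- The mesh size. -/
noncomputable def ep (m : ℕ) : ℝ := 1 / ((m : ℝ) + 1)

theorem ep_pos (m : ℕ) : 0 < ep m := Nat.one_div_pos_of_nat

theorem ep_le (m : ℕ) : ep m ≤ 1 := by
  unfold ep
  rw [div_le_one (by positivity)]
  linarith [m.cast_nonneg (α := ℝ)]

theorem ep_sq (m : ℕ) : ep m ^ 2 ≤ ep m := by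
  nlinarith [ep_pos m, ep_le m]

theorem ep_lim : Tendsto ep (hyperfilter ℕ) (𝓝 0) :=
  tendsto_one_div_add_atTop_nhds_zero_nat.mono_left Nat.hyperfilter_le_atTop

theorem ex_lim [FiniteDimensional ℝ V] {a : ℕ → V} {c : ℝ} (h : ∀ m, ‖a m‖ ≤ c) :
    ∃ v, Tendsto a (hyperfilter ℕ) (𝓝 v) := by
  have := FiniteDimensional.proper ℝ V
  obtain ⟨v, -, hv⟩ := (isCompact_closedBall (0 : V) c).ultrafilter_le_nhds
    ((hyperfilter ℕ).map a) (by
      rw [le_principal_iff, Ultrafilter.coe_map, mem_map]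
      exact Eventually.of_forall fun m => mem_closedBall_zero_iff.2 (h m))
  exact ⟨v, hv⟩

theorem cont_rhs {S : Sys V} (hS : S.Sm) (x : X3) :
    Continuous fun P : ℝ × V × (Fin 3 → V) =>
      ∑ j, S.A j (P.1, x) P.2.1 (P.2.2 j) + S.F (P.1, x) P.2.1 := by
  have ha := fun j => (hS.a j).continuous
  have hl := fun j => (hS.l j).continuous
  have hb := hS.b.continuous
  have hq := hS.q.continuous
  unfold Sys.A Sys.F
  fun_prop

theorem between {i n m : ℕ} {h : ℝ} (h1 : min n m ≤ i) (h2 : i < max n m) :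
    |(i : ℝ) * h - n * h| ≤ |(m : ℝ) * h - n * h| := by
  rw [← sub_mul, ← sub_mul, abs_mul, abs_mul]
  refine mul_le_mul_of_nonneg_right ?_ (abs_nonneg h)
  rcases le_total n m with hnm | hnm
  · rw [min_eq_left hnm] at h1
    rw [max_eq_right hnm] at h2
    have a1 : (n : ℝ) ≤ i := Nat.cast_le.2 h1
    have a2 : (i : ℝ) ≤ m := Nat.cast_le.2 h2.le
    rw [abs_of_nonneg (by linarith), abs_of_nonneg (by linarith)]
    linarith
  · rw [min_eq_right hnm] at h1
    rw [max_eq_left hnm] at h2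
    have a1 : (m : ℝ) ≤ i := Nat.cast_le.2 h1
    have a2 : (i : ℝ) ≤ n := Nat.cast_le.2 h2.le
    rw [abs_of_nonpos (by linarith), abs_of_nonpos (by linarith)]
    linarith

/-- The limit of the scheme on a set of times. -/
theorem pre_of [FiniteDimensional ℝ V] {S : Sys V} {C : ℕ → ℝ} {t0 r : ℝ} {w : X3 → V}
    (hS : S.OK) (hC : S.Bd (Icc (t0 - 1) (t0 + 1)) C) (hw : Good w) (hr : Nk 8 w r) {I : Set ℝ}
    {h : ℕ → ℝ} {N : ℕ → ℝ → ℕ} (hh : ∀ m, |h m| = ep m ^ 2)
    (hN : ∀ m t, N m t * ep m ^ 2 ≤ del C r)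
    (hN' : ∀ m, ∀ t ∈ I, |N m t * h m - (t - t0)| ≤ ep m ^ 2) (h0 : ∀ m, N m t0 = 0) :
    ∃ U, Pre S I U ∧ U t0 = w ∧ ∀ t, Sb 1 (U t) (3 * (2 * r)) := by
  have := FiniteDimensional.complete ℝ V
  have hgd := fun m n => good_sch hS.sm (ep m) (h m) t0 hw n
  set u : ℕ → ℕ → X3 → V := fun m n => sch S (ep m) (h m) t0 w n with hu
  have hb : ∀ k, ∃ c, ∀ m n : ℕ, n * ep m ^ 2 ≤ del C r →
      Sb k (u m n) c ∧ Sb k (Gd S (ep m) (t0 + n * h m) (u m n)) c := fun k => by
    obtain ⟨c, hc⟩ := sch_bd hS hC hw hr k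
    exact ⟨c, fun m n hn => hc _ _ (ep_pos m) (ep_le m) (hh m).le n hn⟩
  choose c hc using hb
  have hle : ∀ m (t t' : ℝ) (i : ℕ), i ≤ max (N m t) (N m t') → i * ep m ^ 2 ≤ del C r := by
    intro m t t' i hi
    rcases le_max_iff.1 hi with hi | hi
    · exact (mul_le_mul_of_nonneg_right (Nat.cast_le.2 hi) (sq_nonneg _)).trans (hN m t)
    · exact (mul_le_mul_of_nonneg_right (Nat.cast_le.2 hi) (sq_nonneg _)).trans (hN m t')
  have hst : ∀ α m i x, pdl α (u m (i + 1)) x - pdl α (u m i) x =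
      h m • pdl α (Gd S (ep m) (t0 + i * h m) (u m i)) x := fun α m i x => by
    have hG := good_Gd hS.sm (ep m) (t0 + i * h m) (hgd m i)
    have : u m (i + 1) = u m i + h m • Gd S (ep m) (t0 + i * h m) (u m i) := rfl
    rw [this, pdl_add α (hgd m i).1 (hG.smul _).1, pdl_smul α _ hG.1]
    simp [hu]
  have hlip : ∀ α m (n n' : ℕ) x, max n n' * ep m ^ 2 ≤ del C r →
      ‖pdl α (u m n') x - pdl α (u m n) x‖ ≤ |(n' : ℝ) * h m - n * h m| * c α.length := by
    intro α m n n' x hn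
    have h1 := tele' (a := fun i => pdl α (u m i) x) (v := 0) (η := |h m| * c α.length) n n'
      fun i _ hi => by
        rw [sub_zero, hst, norm_smul]
        refine mul_le_mul_of_nonneg_left ((hc _ m i ?_).2 α le_rfl x) (abs_nonneg _)
        exact (mul_le_mul_of_nonneg_right (by exact_mod_cast hi.le) (sq_nonneg _)).trans hn
    rw [smul_zero, sub_zero, ← mul_assoc, ← abs_mul, sub_mul] at h1
    exact h1
  have hlim : ∀ t α x, ∃ v, Tendsto (fun m => pdl α (u m (N m t)) x) (hyperfilter ℕ) (𝓝 v) :=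
    fun t α x => ex_lim fun m => (hc α.length m _ (hN m t)).1 α le_rfl x
  choose g hg using hlim
  have hsp := fun t => lim_space (fun m => (hgd m (N m t)).1)
    (fun k => ⟨c k, fun m => (hc k m _ (hN m t)).1⟩) (hg t)
  have hsb : ∀ t k d, (∀ m, Sb k (u m (N m t)) d) → Sb k (g t []) d := fun t k d hd α hα x => by
    rw [(hsp t).2 α]
    exact le_of_tendsto' (hg t α x).norm fun m => hd m α hα x
  have hτ : ∀ t ∈ I, Tendsto (fun m => N m t * h m) (hyperfilter ℕ) (𝓝 (t - t0)) := by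
    intro t ht
    rw [tendsto_iff_norm_sub_tendsto_zero]
    exact squeeze_zero (fun m => norm_nonneg _) (fun m => (hN' m t ht).trans (ep_sq m)) ep_lim
  have htl : ∀ α, ∀ t ∈ I, ∀ t' ∈ I, ∀ x, ‖g t' α x - g t α x‖ ≤ |t' - t| * c α.length := by
    intro α t ht t' ht' x
    have h1 := (((hτ t' ht').sub (hτ t ht)).abs).mul_const (c α.length)
    rw [sub_sub_sub_cancel_right] at h1
    refine le_of_tendsto_of_tendsto' ((hg t' α x).sub (hg t α x)).norm h1 fun m => ?_
    refine hlip α m _ _ x ?_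
    exact_mod_cast hle m t t' _ le_rfl
  refine ⟨fun t => g t [], ⟨fun t _ => (hsp t).1, fun α => ?_, fun t ht x => ?_⟩, ?_,
    fun t => hsb t 1 _ fun m => sch_bd1 hS hC hw hr (ep_pos m) (ep_le m) (hh m).le _ (hN m t)⟩
  · intro p hp
    have h1 : Continuous fun q : ℝ × X3 =>
        |q.1 - p.1| * c α.length + 3 * c (1 + α.length) * ‖q.2 - p.2‖ := by fun_prop
    have h2 := (h1.tendsto p).mono_left (nhdsWithin_le_nhds (s := I ×ˢ univ))
    simp only [sub_self, abs_zero, zero_mul, norm_zero, mul_zero, add_zero] at h2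
    rw [ContinuousWithinAt, tendsto_iff_norm_sub_tendsto_zero]
    refine squeeze_zero' (Eventually.of_forall fun _ => norm_nonneg _)
      (eventually_nhdsWithin_of_forall fun q hq => ?_) h2
    refine (norm_sub_le_norm_sub_add_norm_sub _ (pdl α (g p.1 []) q.2) _).trans (add_le_add ?_ ?_)
    · rw [(hsp q.1).2, (hsp p.1).2]
      exact htl α _ hp.1 _ hq.1 _
    · exact ((hsb p.1 _ _ fun m => (hc _ m _ (hN m p.1)).1).pdl α).lip (pdl_sm α (hsp p.1).1) _ _
  · rw [hasDerivWithinAt_iff_isLittleO, Asymptotics.isLittleO_iff]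
    intro η hη
    obtain ⟨ρ, hρ, hΦ⟩ := Metric.continuousAt_iff.1
      ((cont_rhs hS.sm x).continuousAt (x := (t, g t [] x, fun j => pd j (g t []) x))) η hη
    have hc2 : 0 ≤ c 2 := (hc 2 0 _ (hN 0 t)).1.nonneg
    have hlip2 : ∀ α, α.length ≤ 1 → ∀ m (n n' : ℕ), max n n' * ep m ^ 2 ≤ del C r →
        ‖pdl α (u m n') x - pdl α (u m n) x‖ ≤ |(n' : ℝ) * h m - n * h m| * (c 0 + c 1) := by
      intro α hα m n n' hn
      refine (hlip α m n n' x hn).trans (mul_le_mul_of_nonneg_left ?_ (abs_nonneg _))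
      have a0 : 0 ≤ c 0 := (hc 0 0 _ (hN 0 t)).1.nonneg
      have a1 : 0 ≤ c 1 := (hc 1 0 _ (hN 0 t)).1.nonneg
      rcases Nat.le_one_iff_eq_zero_or_eq_one.1 hα with h1 | h1 <;> rw [h1] <;> linarith
    have h1 : Tendsto (fun s => |s - t| * (|c 0 + c 1| + 1)) (𝓝[I] t)
        (𝓝 (|t - t| * (|c 0 + c 1| + 1))) :=
      ((by fun_prop : Continuous fun s : ℝ => |s - t| * (|c 0 + c 1| + 1)).tendsto t).mono_left
        nhdsWithin_le_nhds
    rw [sub_self, abs_zero, zero_mul] at h1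
    filter_upwards [h1.eventually (gt_mem_nhds (half_pos hρ)), self_mem_nhdsWithin] with s hs hsI
    have h2 := ((hτ s hsI).sub (hτ t ht))
    rw [sub_sub_sub_cancel_right] at h2
    have h3 := (((hg s [] x).sub (hg t [] x)).sub (h2.smul_const (S.G t (g t []) x))).norm
    rw [mul_comm]
    refine le_of_tendsto_of_tendsto h3 (h2.norm.mul_const η) ?_
    have e1 := (h2.abs.mul_const (|c 0 + c 1| + 1)).eventually (gt_mem_nhds hs)
    have e2 := (ep_lim.const_mul (c 2 + 1)).eventually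
      (gt_mem_nhds (show (c 2 + 1) * 0 < ρ / 4 by linarith))
    have e3 := Metric.tendsto_nhds.1 (hg t [] x) (ρ / 4) (by linarith)
    have e4 := eventually_all.2 fun j => Metric.tendsto_nhds.1 (hg t [j] x) (ρ / 4) (by linarith)
    filter_upwards [e1, e2, e3, e4] with m e1 e2 e3 e4
    have h4 := tele' (a := fun i => u m i x) (v := h m • S.G t (g t []) x) (η := |h m| * η)
      (N m t) (N m s) fun i hi hi' => ?_
    · rw [smul_smul, ← mul_assoc, ← abs_mul, sub_mul] at h4
      exact h4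
    have hi1 := hle m t s i hi'.le
    have hi2 := between (h := h m) hi hi'
    have hmx : (max (N m t) i : ℕ) * ep m ^ 2 ≤ del C r :=
      hle m t s _ (max_le (le_max_left _ _) hi'.le)
    have hd : |(i : ℝ) * h m - N m t * h m| * (|c 0 + c 1| + 1) < ρ / 2 :=
      (mul_le_mul_of_nonneg_right hi2 (by positivity)).trans_lt e1
    have ha := abs_nonneg ((i : ℝ) * h m - N m t * h m)
    have hb := abs_nonneg (c 0 + c 1)
    have hd1 : |(i : ℝ) * h m - N m t * h m| < ρ / 2 := by nlinarith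
    have hd2 : |(i : ℝ) * h m - N m t * h m| * (c 0 + c 1) < ρ / 2 := by
      nlinarith [le_abs_self (c 0 + c 1)]
    have he := ep_pos m
    have he1 : ep m < ρ / 4 := by nlinarith
    have he2 : c 2 * ep m < ρ / 4 := by nlinarith
    have h5 := hst [] m i x
    simp only [pdl] at h5
    rw [h5, ← smul_sub, norm_smul, Gd_apply]
    refine mul_le_mul_of_nonneg_left ?_ (abs_nonneg _)
    rw [← dist_eq_norm]
    refine (hΦ (x := (t0 + i * h m, u m i x, fun j => fd (ep m) j (u m i) x)) ?_).le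
    rw [Prod.dist_eq, Prod.dist_eq, max_lt_iff, max_lt_iff, dist_pi_lt_iff hρ]
    refine ⟨?_, ?_, fun j => ?_⟩
    · have h6 := (hN' m t ht).trans (ep_sq m)
      rw [Real.dist_eq, show t0 + i * h m - t = (i * h m - N m t * h m) +
        (N m t * h m - (t - t0)) by ring]
      refine (abs_add_le _ _).trans_lt ?_
      linarith
    · have h6 := hlip2 [] (by simp) m (N m t) i hmx
      rw [← dist_eq_norm] at h6
      refine (dist_triangle _ (pdl [] (u m (N m t)) x) _).trans_lt ?_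
      simp only [pdl] at h6 e3 ⊢
      linarith
    · have h6 := hlip2 [j] (by simp) m (N m t) i hmx
      have h7 := fd_close (hc 2 m i hi1).1 (hgd m i).1 he j x
      have h8 := e4 j
      rw [← (hsp t).2 [j]] at h8
      rw [← dist_eq_norm] at h6 h7
      refine (dist_triangle4 _ (pdl [j] (u m i) x) (pdl [j] (u m (N m t)) x) _).trans_lt ?_
      simp only [pdl] at h6 h8 ⊢
      linarith
  · funext x
    have h1 := hg t0 [] x
    simp only [h0, hu, sch, pdl] at h1
    exact tendsto_nhds_unique h1 tendsto_const_nhds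

theorem one_side [FiniteDimensional ℝ V] {S : Sys V} {C : ℕ → ℝ} {t0 r σ : ℝ} {w : X3 → V}
    (hS : S.OK) (hC : S.Bd (Icc (t0 - 1) (t0 + 1)) C) (hw : Good w) (hr : Nk 8 w r)
    (hσ : σ = 1 ∨ σ = -1) : ∃ U, Pre S {t | σ * (t - t0) ∈ Icc 0 (del C r)} U ∧ U t0 = w ∧
      ∀ t, Sb 1 (U t) (3 * (2 * r)) := by
  have h1 : |σ| = 1 := by rcases hσ with h | h <;> simp [h]
  have h2 : σ * σ = 1 := by rcases hσ with h | h <;> simp [h]
  refine pre_of hS hC hw hr (h := fun m => σ * ep m ^ 2)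
    (N := fun m t => ⌊max 0 (min (σ * (t - t0)) (del C r)) / ep m ^ 2⌋₊) (fun m => ?_)
    (fun m t => ?_) (fun m t ht => ?_) fun m => ?_
  · rw [abs_mul, h1, one_mul, abs_of_nonneg (sq_nonneg _)]
  · have hp := pow_pos (ep_pos m) 2
    rw [← le_div_iff₀ hp]
    refine (Nat.floor_le (by positivity)).trans (div_le_div_of_nonneg_right ?_ hp.le)
    exact max_le (del_pos C r).le (min_le_right _ _)
  · have hp := pow_pos (ep_pos m) 2
    rw [min_eq_left ht.2, max_eq_right ht.1]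
    have h3 := Nat.floor_le (div_nonneg ht.1 hp.le)
    have h4 := Nat.lt_floor_add_one (σ * (t - t0) / ep m ^ 2)
    rw [le_div_iff₀ hp] at h3
    rw [div_lt_iff₀ hp] at h4
    have h5 : (⌊σ * (t - t0) / ep m ^ 2⌋₊ : ℝ) * (σ * ep m ^ 2) - (t - t0) =
        σ * (⌊σ * (t - t0) / ep m ^ 2⌋₊ * ep m ^ 2 - σ * (t - t0)) := by
      linear_combination (t - t0) * h2
    rw [h5, abs_mul, h1, one_mul, abs_le]
    constructor <;> linarith
  · simp [(del_pos C r).le]

theorem pre : PRE := by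
  intro C R
  refine ⟨del C (√R), 3 * (2 * √R), del_pos _ _, del_le _ _, fun V _ _ _ S t0 w hS hC hw hR => ?_⟩
  obtain ⟨U, hU, h0, hb⟩ := one_side hS hC hw hR.nk (Or.inl rfl)
  obtain ⟨U', hU', h0', hb'⟩ := one_side hS hC hw hR.nk (Or.inr rfl)
  refine ⟨fun t => if t0 ≤ t then U t else U' t, Pre.mono (Pre.union (hU.congr fun t ht => ?_)
    (hU'.congr fun t ht => ?_) (isClosed_Icc.preimage (by fun_prop))
    (isClosed_Icc.preimage (by fun_prop))) fun t ht => ?_, by simp [h0], fun t _ => ?_⟩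
  · exact if_pos (by linarith [ht.1])
  · split_ifs with h
    · have : t = t0 := by linarith [ht.1]
      rw [this, h0, h0']
    · rfl
  · rcases le_total t0 t with h | h
    · exact Or.inl ⟨by linarith, by linarith [ht.2]⟩
    · exact Or.inr ⟨by linarith, by linarith [ht.1]⟩
  · dsimp only
    split_ifs
    exacts [hb t, hb' t]

end Vale.Agent.P354H
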