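import Vale.Agent.P354H.L2

open scoped ContDiff
open MeasureTheory Set Filter Topology

namespace Vale.Agent.P354H

variable {V V' : Type} [NormedAddCommGroup V] [NormedSpace ℝ V] [NormedAddCommGroup V']
  [NormedSpace ℝ V']

theorem n2_ap {A : X3 → V →L[ℝ] V'} {w : X3 → V} {s : ℝ} (hA : Continuous A) (hw : C0 w)
    (h : ∀ x, ‖A x‖ ≤ s) : n2 (ap A w) ≤ s * n2 w := by
  refine n2_mono ⟨hA.clm_apply hw.1, hw.2.mono fun x hx h => hx (by simp [ap, h])⟩ hw
    ((norm_nonneg _).trans (h 0)) fun x => ?_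
  exact ((A x).le_opNorm _).trans (mul_le_mul_of_nonneg_right (h x) (norm_nonneg _))

theorem n2_ap' {A : X3 → V →L[ℝ] V'} {w : X3 → V} {s : ℝ} (hA : C0 A) (hw : Continuous w)
    (h : ∀ x, ‖w x‖ ≤ s) : n2 (ap A w) ≤ s * n2 A := by
  refine n2_mono ⟨hA.1.clm_apply hw, hA.2.mono fun x hx h => hx (by simp [ap, h])⟩ hA
    ((norm_nonneg _).trans (h 0)) fun x => ?_
  rw [mul_comm]
  exact ((A x).le_opNorm _).trans (mul_le_mul_of_nonneg_left (h x) (norm_nonneg _))

theorem one_le_two_pow (k : ℕ) : (1 : ℝ) ≤ 2 ^ k := one_le_pow₀ (by norm_num)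

/-- Bounded coefficient times Sobolev function. -/
theorem prod1 {k : ℕ} {A : X3 → V →L[ℝ] V'} {w : X3 → V} {s n : ℝ} (hA : ContDiff ℝ ∞ A)
    (hw : Good w) (h : Sb k A s) (h' : Nk k w n) : Nk k (ap A w) (2 ^ k * (s * n)) := by
  have h0 : ∀ {k : ℕ} {A : X3 → V →L[ℝ] V'} {w : X3 → V}, ContDiff ℝ ∞ A → Good w → Sb k A s →
      Nk k w n → n2 (ap A w) ≤ s * n := fun hA hw h h' =>
    (n2_ap hA.continuous hw.c0 h.zero).trans (mul_le_mul_of_nonneg_left h'.zero h.nonneg)
  induction k generalizing A w with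
  | zero => exact nk_zero (by simpa using h0 hA hw h h')
  | succ k ih =>
    refine nk_succ ((h0 hA hw h h').trans (le_mul_of_one_le_left
      (mul_nonneg h.nonneg h'.nonneg) (one_le_two_pow _))) fun j => ?_
    rw [pd_ap j hA hw.1]
    have h1 := ih (pd_sm j hA) hw (h.pd j) (h'.low k.le_succ)
    have h2 := ih hA (hw.pd j) (h.low k.le_succ) (h'.pd j)
    exact (h1.add h2 (hw.ap_right (pd_sm j hA)) ((hw.pd j).ap_right hA)).mono le_rfl
      (le_of_eq (by ring))

/-- Sobolev coefficient times bounded function. -/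
theorem prod1' {k : ℕ} {A : X3 → V →L[ℝ] V'} {w : X3 → V} {s n : ℝ} (hA : Good A)
    (hw : ContDiff ℝ ∞ w) (h : Nk k A n) (h' : Sb k w s) : Nk k (ap A w) (2 ^ k * (n * s)) := by
  have h0 : ∀ {k : ℕ} {A : X3 → V →L[ℝ] V'} {w : X3 → V}, Good A → ContDiff ℝ ∞ w → Nk k A n →
      Sb k w s → n2 (ap A w) ≤ n * s := fun hA hw h h' =>
    (n2_ap' hA.c0 hw.continuous h'.zero).trans (by
      rw [mul_comm]; exact mul_le_mul_of_nonneg_right h.zero h'.nonneg)
  induction k generalizing A w with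
  | zero => exact nk_zero (by simpa using h0 hA hw h h')
  | succ k ih =>
    refine nk_succ ((h0 hA hw h h').trans (le_mul_of_one_le_left
      (mul_nonneg h.nonneg h'.nonneg) (one_le_two_pow _))) fun j => ?_
    rw [pd_ap j hA.1 hw]
    have h1 := ih (hA.pd j) hw (h.pd j) (h'.low k.le_succ)
    have h2 := ih hA (pd_sm j hw) (h.low k.le_succ) (h'.pd j)
    exact (h1.add h2 ((hA.pd j).ap_left hw) (hA.ap_left (pd_sm j hw))).mono le_rfl
      (le_of_eq (by ring))

/-- Tame product estimate. -/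
theorem prod2 {k a b : ℕ} {A : X3 → V →L[ℝ] V'} {w : X3 → V} {s1 n1 s2 n2' : ℝ} (hA : Good A)
    (hw : Good w) (hk : k ≤ a + b + 1) (h1 : Sb a A s1) (h2 : Nk k A n1) (h3 : Sb b w s2)
    (h4 : Nk k w n2') : Nk k (ap A w) (2 ^ k * (s1 * n2' + n1 * s2)) := by
  have p1 : 0 ≤ s1 * n2' := mul_nonneg h1.nonneg h4.nonneg
  have p2 : 0 ≤ n1 * s2 := mul_nonneg h2.nonneg h3.nonneg
  induction k generalizing A w a b with
  | zero =>
    exact (prod1 hA.1 hw (h1.low (Nat.zero_le _)) h4).mono le_rfl (by simpa using p2)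
  | succ k ih =>
    refine nk_succ ?_ fun j => ?_
    · refine ((prod1 hA.1 hw (h1.low (Nat.zero_le _)) (h4.low (Nat.zero_le _))).zero).trans ?_
      have := one_le_two_pow (k + 1)
      nlinarith
    · rw [pd_ap j hA.1 hw.1]
      have q1 : Nk k (ap (pd j A) w) (2 ^ k * (s1 * n2' + n1 * s2)) := by
        cases a with
        | zero =>
          refine (prod1' (hA.pd j) hw.1 (h2.pd j) (h3.low (by omega))).mono le_rfl ?_
          exact mul_le_mul_of_nonneg_left (le_add_of_nonneg_left p1) (by positivity)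
        | succ a =>
          exact ih (hA.pd j) hw (by omega) (h1.pd j) (h2.pd j) h3 (h4.low k.le_succ)
      have q2 : Nk k (ap A (pd j w)) (2 ^ k * (s1 * n2' + n1 * s2)) := by
        cases b with
        | zero =>
          refine (prod1 hA.1 (hw.pd j) (h1.low (by omega)) (h4.pd j)).mono le_rfl ?_
          exact mul_le_mul_of_nonneg_left (le_add_of_nonneg_right p2) (by positivity)
        | succ b =>
          exact ih hA (hw.pd j) (by omega) h1 (h2.low k.le_succ) (h3.pd j) (h4.pd j)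
      exact (q1.add q2 ((hA.pd j).ap_left hw.1) (hA.ap_left (pd_sm j hw.1))).mono le_rfl
        (le_of_eq (by ring))

/-- The commutator of a derivative and a multiplication. -/
noncomputable def comm (α : List (Fin 3)) (A : X3 → V →L[ℝ] V') (w : X3 → V) : X3 → V' :=
  pdl α (ap A w) - ap A (pdl α w)

theorem comm_nil (A : X3 → V →L[ℝ] V') (w : X3 → V) : comm [] A w = 0 := sub_self _

theorem comm_cons (j : Fin 3) (α : List (Fin 3)) {A : X3 → V →L[ℝ] V'} {w : X3 → V}
    (hA : ContDiff ℝ ∞ A) (hw : ContDiff ℝ ∞ w) :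
    comm (j :: α) A w = pdl α (ap (pd j A) w) + comm α A (pd j w) := by
  simp only [comm, pdl]
  rw [pd_ap j hA hw, pdl_add α (ap_sm (pd_sm j hA) hw) (ap_sm hA (pd_sm j hw)), add_sub_assoc]

theorem good_comm (α : List (Fin 3)) {A : X3 → V →L[ℝ] V'} {w : X3 → V} (hA : ContDiff ℝ ∞ A)
    (hw : Good w) : Good (comm α A w) :=
  ((hw.ap_right hA).pdl α).sub ((hw.pdl α).ap_right hA)

theorem comm1 (α : List (Fin 3)) {k : ℕ} {A : X3 → V →L[ℝ] V'} {w : X3 → V} {s n : ℝ}
    (hA : ContDiff ℝ ∞ A) (hw : Good w) (h : Sb (k + 1) A s) (h' : Nk k w n)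
    (hα : α.length ≤ k + 1) : n2 (comm α A w) ≤ α.length * (2 ^ k * (s * n)) := by
  have p : 0 ≤ s * n := mul_nonneg h.nonneg h'.nonneg
  induction α generalizing k w with
  | nil => simp [comm_nil, n2_zero]
  | cons j α ih =>
    rw [List.length_cons] at hα
    rw [comm_cons j α hA hw.1, List.length_cons, Nat.cast_succ, add_mul, one_mul, add_comm _ (2 ^ k * _)]
    refine (n2_add ((hw.ap_right (pd_sm j hA)).pdl α).c0 (good_comm α hA (hw.pd j)).c0).trans
      (add_le_add (prod1 (pd_sm j hA) hw (h.pd j) h' α (by omega)) ?_)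
    cases k with
    | zero =>
      have : α = [] := List.eq_nil_of_length_eq_zero (by omega)
      subst this
      simp [comm_nil, n2_zero]
    | succ k =>
      refine (ih (hw.pd j) (h.low (Nat.le_succ _)) (h'.pd j) (by omega)).trans ?_
      gcongr
      · norm_num
      · exact k.le_succ

theorem comm2 (α : List (Fin 3)) {k a b : ℕ} {A : X3 → V →L[ℝ] V'} {w : X3 → V}
    {s1 n1 s2 n2' : ℝ} (hA : Good A) (hw : Good w) (hk : k ≤ a + b + 1) (h1 : Sb (a + 1) A s1)
    (h2 : Nk (k + 1) A n1) (h3 : Sb b w s2) (h4 : Nk k w n2') (hα : α.length ≤ k + 1) :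
    n2 (comm α A w) ≤ α.length * (2 ^ k * (s1 * n2' + n1 * s2)) := by
  have p1 : 0 ≤ s1 * n2' := mul_nonneg h1.nonneg h4.nonneg
  have p2 : 0 ≤ n1 * s2 := mul_nonneg h2.nonneg h3.nonneg
  induction α generalizing k w b with
  | nil => simp [comm_nil, n2_zero]
  | cons j α ih =>
    rw [List.length_cons] at hα
    rw [comm_cons j α hA.1 hw.1, List.length_cons, Nat.cast_succ, add_mul, one_mul,
      add_comm _ (2 ^ k * _)]
    refine (n2_add ((hw.ap_right (pd_sm j hA.1)).pdl α).c0
      (good_comm α hA.1 (hw.pd j)).c0).trans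
      (add_le_add (prod2 (hA.pd j) hw hk (h1.pd j) (h2.pd j) h3 h4 α (by omega)) ?_)
    cases k with
    | zero =>
      have : α = [] := List.eq_nil_of_length_eq_zero (by omega)
      subst this
      simp [comm_nil, n2_zero]
    | succ k =>
      cases b with
      | zero =>
        refine (comm1 α hA.1 (hw.pd j) (h1.low (by omega)) (h4.pd j) (by omega)).trans ?_
        gcongr
        · norm_num
        · exact k.le_succ
        · exact le_add_of_nonneg_right p2
      | succ b =>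
        refine (ih (hw.pd j) (by omega) (h2.low (Nat.le_succ _)) (h3.pd j) (h4.pd j)
          (by omega)).trans ?_
        gcongr
        · norm_num
        · exact k.le_succ

end Vale.Agent.P354H
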